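import Vale.Agent.P159.TM.H764.Wave

/-!
One scale hypothesis of the finite size criterion on the torus `V = Z_N x Z_N`, in terms of the
covariance kernel `G w = Cov_0 (h_0, h_w)` of the massive integer heights with mass `1/ξ²`:

* `QU ξ G y a` : `(1-y) ξ² |u|² - a ξ⁴ |∇u|² ≤ <u, G u>` for all real `u`;
* `QK ξ G y a` : the same on plane waves (`QU_iff`);
* `Hyp W ξ G y a` : `QU` and the crude lower bound of `Ĝ(k)` for `|k_i| ≤ W/ξ`.
-/

set_option linter.unusedSectionVars false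

namespace Vale.Agent.P159.TM.H764

open Finset

noncomputable section

variable {N : ℕ} [NeZero N]

/-- the quadratic form `<u, K u> = ∑_{x,z} K(z-x) u(x) u(z)`. -/
def frm (K : ZMod N × ZMod N → ℝ) (u : ZMod N × ZMod N → ℝ) : ℝ :=
  ∑ x, ∑ z, K (z - x) * u x * u z

/-- lattice Dirichlet energy `|∇u|²`. -/
def grd (u : ZMod N × ZMod N → ℝ) : ℝ := Q u (1, 0) + Q u (0, 1)

/-- lattice symbol `E(k) = (2 - 2 cos k₁) + (2 - 2 cos k₂)`. -/
def EE (k : ZMod N × ZMod N) : ℝ := 2 * (1 - cN k.1) + 2 * (1 - cN k.2)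

/-- wave number in `(-π, π]`. -/
def pw (j : ZMod N) : ℝ := 2 * Real.pi * (j.valMinAbs : ℝ) / N

/-- dot product in `Z_N`. -/
def dt (k x : ZMod N × ZMod N) : ZMod N := k.1 * x.1 + k.2 * x.2

lemma dt_sub (k x z : ZMod N × ZMod N) : dt k (z - x) = dt k z - dt k x := by
  unfold dt; simp; ring

lemma dt_add (k x z : ZMod N × ZMod N) : dt k (x + z) = dt k x + dt k z := by
  unfold dt; simp; ring

lemma Gh_dt (K : ZMod N × ZMod N → ℝ) (k : ZMod N × ZMod N) :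
    Gh K k = ∑ w, K w * cN (dt k w) := rfl

lemma cN_sub (a b : ZMod N) : cN (a - b) = cN a * cN b + sN a * sN b := by
  rw [sub_eq_add_neg, cN_add, cN_neg, sN_neg]; ring

lemma cN_sq_add (a : ZMod N) : cN a ^ 2 + sN a ^ 2 = 1 := by
  unfold cN sN
  rw [add_comm]
  exact Real.sin_sq_add_cos_sq _

lemma card_V : (Fintype.card (ZMod N × ZMod N) : ℝ) = (N : ℝ) ^ 2 := by
  rw [Fintype.card_prod, ZMod.card]
  push_cast
  ring

/-- the two real plane waves test the transform. -/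
lemma frm_wave (K : ZMod N × ZMod N → ℝ) (k : ZMod N × ZMod N) :
    frm K (fun x => cN (dt k x)) + frm K (fun x => sN (dt k x)) = (N : ℝ) ^ 2 * Gh K k := by
  unfold frm
  rw [← Finset.sum_add_distrib]
  have h : ∀ x : ZMod N × ZMod N, (∑ z, K (z - x) * cN (dt k x) * cN (dt k z)) +
      (∑ z, K (z - x) * sN (dt k x) * sN (dt k z)) = Gh K k := by
    intro x
    rw [← Finset.sum_add_distrib, Gh_dt, ← Equiv.sum_comp (Equiv.subRight x)
      (fun w => K w * cN (dt k w))]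
    refine Finset.sum_congr rfl fun z _ => ?_
    simp only [Equiv.subRight_apply]
    rw [dt_sub, cN_sub]
    ring
  simp_rw [h]
  rw [Finset.sum_const, Finset.card_univ, nsmul_eq_mul, card_V]

lemma sq_wave (k : ZMod N × ZMod N) :
    ∑ x : ZMod N × ZMod N, cN (dt k x) ^ 2 + ∑ x : ZMod N × ZMod N, sN (dt k x) ^ 2 =
      (N : ℝ) ^ 2 := by
  rw [← Finset.sum_add_distrib]
  simp_rw [cN_sq_add]
  rw [Finset.sum_const, Finset.card_univ, nsmul_eq_mul, card_V, mul_one]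

lemma sN_add (a b : ZMod N) : sN (a + b) = sN a * cN b + cN a * sN b := by
  obtain ⟨m, rfl⟩ := exists_int a
  obtain ⟨n, rfl⟩ := exists_int b
  rw [← Int.cast_add, sN_int, cN_int, cN_int, sN_int, sN_int, ← Real.sin_add]
  congr 1
  push_cast
  ring

lemma Q_wave (k e : ZMod N × ZMod N) :
    Q (fun x => cN (dt k x)) e + Q (fun x => sN (dt k x)) e =
      (N : ℝ) ^ 2 * (2 * (1 - cN (dt k e))) := by
  unfold Q
  rw [← Finset.sum_add_distrib]
  have h : ∀ x : ZMod N × ZMod N, (cN (dt k (x + e)) - cN (dt k x)) ^ 2 +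
      (sN (dt k (x + e)) - sN (dt k x)) ^ 2 = 2 * (1 - cN (dt k e)) := by
    intro x
    rw [dt_add, cN_add, sN_add]
    have h1 := cN_sq_add (dt k x)
    have h2 := cN_sq_add (dt k e)
    have h3 : (cN (dt k x) * cN (dt k e) - sN (dt k x) * sN (dt k e) - cN (dt k x)) ^ 2 +
        (sN (dt k x) * cN (dt k e) + cN (dt k x) * sN (dt k e) - sN (dt k x)) ^ 2 =
        (cN (dt k x) ^ 2 + sN (dt k x) ^ 2) * ((cN (dt k e) ^ 2 + sN (dt k e) ^ 2) + 1
          - 2 * cN (dt k e)) := by ring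
    rw [h3, h1, h2]
    ring
  simp_rw [h]
  rw [Finset.sum_const, Finset.card_univ, nsmul_eq_mul, card_V]

lemma grd_wave (k : ZMod N × ZMod N) :
    grd (fun x => cN (dt k x)) + grd (fun x => sN (dt k x)) = (N : ℝ) ^ 2 * EE k := by
  unfold grd EE
  have h1 := Q_wave k (1, 0)
  have h2 := Q_wave k (0, 1)
  have e1 : dt k (1, 0) = k.1 := by simp [dt]
  have e2 : dt k (0, 1) = k.2 := by simp [dt]
  rw [e1] at h1
  rw [e2] at h2
  linarith

/-- one scale hypothesis, basis free. -/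
def QU (ξ : ℝ) (G : ZMod N × ZMod N → ℝ) (y a : ℝ) : Prop :=
  ∀ u : ZMod N × ZMod N → ℝ,
    (1 - y) * ξ ^ 2 * (∑ x, u x ^ 2) - a * ξ ^ 4 * grd u ≤ frm G u

/-- one scale hypothesis on plane waves. -/
def QK (ξ : ℝ) (G : ZMod N × ZMod N → ℝ) (y a : ℝ) : Prop :=
  ∀ k : ZMod N × ZMod N, (1 - y) * ξ ^ 2 - a * ξ ^ 4 * EE k ≤ Gh G k

lemma QU.qk {ξ : ℝ} {G : ZMod N × ZMod N → ℝ} {y a : ℝ} (h : QU ξ G y a) : QK ξ G y a := by
  intro k
  have h1 := h (fun x => cN (dt k x))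
  have h2 := h (fun x => sN (dt k x))
  have h3 := frm_wave G k
  have h4 := sq_wave k
  have h5 := grd_wave k
  have hN : (0 : ℝ) < (N : ℝ) ^ 2 := by
    have : (0 : ℝ) < N := by exact_mod_cast NeZero.pos N
    positivity
  have h6 : (N : ℝ) ^ 2 * ((1 - y) * ξ ^ 2 - a * ξ ^ 4 * EE k) ≤ (N : ℝ) ^ 2 * Gh G k := by
    calc (N : ℝ) ^ 2 * ((1 - y) * ξ ^ 2 - a * ξ ^ 4 * EE k)
        = (1 - y) * ξ ^ 2 * (N : ℝ) ^ 2 - a * ξ ^ 4 * ((N : ℝ) ^ 2 * EE k) := by ring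
      _ = (1 - y) * ξ ^ 2 * (∑ x : ZMod N × ZMod N, cN (dt k x) ^ 2 +
            ∑ x : ZMod N × ZMod N, sN (dt k x) ^ 2) -
          a * ξ ^ 4 * (grd (fun x => cN (dt k x)) + grd (fun x => sN (dt k x))) := by
            rw [h4, h5]
      _ ≤ (N : ℝ) ^ 2 * Gh G k := by rw [← h3]; linarith
  exact le_of_mul_le_mul_left h6 hN

/-! ### Parseval -/

/-- the additive character. -/
def ch (t : ZMod N) : ℂ := ZMod.stdAddChar t

lemma ch_re (t : ZMod N) : (ch t).re = cN t := by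
  obtain ⟨m, rfl⟩ := exists_int t
  unfold ch
  rw [ZMod.stdAddChar_coe, cN_int]
  have : (2 * (Real.pi : ℂ) * Complex.I * (m : ℂ) / (N : ℂ)) =
      ((2 * Real.pi * m / N : ℝ) : ℂ) * Complex.I := by
    push_cast; ring
  rw [this, Complex.exp_ofReal_mul_I_re]

lemma ch_add (a b : ZMod N) : ch (a + b) = ch a * ch b := by
  unfold ch; exact AddChar.map_add_eq_mul _ _ _

lemma ch_zero : ch (0 : ZMod N) = 1 := by
  unfold ch; exact AddChar.map_zero_eq_one _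

lemma ch_conj (a : ZMod N) : (starRingEnd ℂ) (ch a) = ch (-a) := by
  unfold ch
  exact (AddChar.map_neg_eq_conj _ _).symm

lemma sum_ch (b : ZMod N × ZMod N) :
    ∑ k : ZMod N × ZMod N, ch (dt k b) = if b = 0 then ((N : ℂ) ^ 2) else 0 := by
  have h1 : ∀ b : ZMod N, ∑ x : ZMod N, ch (x * b) = if b = 0 then (N : ℂ) else 0 := by
    intro b
    have := AddChar.sum_mulShift (ψ := (ZMod.stdAddChar (N := N))) b
      (ZMod.isPrimitive_stdAddChar N)
    unfold ch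
    rw [this]
    simp [ZMod.card]
  unfold dt
  rw [Fintype.sum_prod_type]
  simp_rw [ch_add]
  simp_rw [← Finset.mul_sum]
  rw [← Finset.sum_mul, h1, h1]
  by_cases h2 : b.1 = 0 <;> by_cases h3 : b.2 = 0
  · have : b = 0 := Prod.ext h2 h3
    rw [if_pos h2, if_pos h3, if_pos this]; ring
  · have : b ≠ 0 := fun h => h3 (by rw [h]; rfl)
    rw [if_neg h3, if_neg this]; ring
  · have : b ≠ 0 := fun h => h2 (by rw [h]; rfl)
    rw [if_neg h2, if_neg this]; ring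
  · have : b ≠ 0 := fun h => h2 (by rw [h]; rfl)
    rw [if_neg h2, if_neg this]; ring

/-- Fourier coefficient. -/
def hatu (u : ZMod N × ZMod N → ℝ) (k : ZMod N × ZMod N) : ℂ := ∑ x, (u x : ℂ) * ch (dt k x)

lemma parseval (K u : ZMod N × ZMod N → ℝ) :
    (N : ℝ) ^ 2 * frm K u = ∑ k, Gh K k * Complex.normSq (hatu u k) := by
  have key : ∑ k : ZMod N × ZMod N, (∑ w, (K w : ℂ) * ch (dt k w)) *
      (hatu u k * (starRingEnd ℂ) (hatu u k)) = (((N : ℝ) ^ 2 * frm K u : ℝ) : ℂ) := by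
    have h1 : ∀ k : ZMod N × ZMod N, (∑ w, (K w : ℂ) * ch (dt k w)) *
        (hatu u k * (starRingEnd ℂ) (hatu u k)) =
        ∑ w, ∑ x, ∑ z, (K w : ℂ) * (u x : ℂ) * (u z : ℂ) * ch (dt k (w + x - z)) := by
      intro k
      have h2 : (starRingEnd ℂ) (hatu u k) = ∑ z, (u z : ℂ) * ch (-(dt k z)) := by
        unfold hatu
        rw [map_sum]
        refine Finset.sum_congr rfl fun z _ => ?_
        rw [map_mul, Complex.conj_ofReal, ch_conj]
      rw [h2]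
      unfold hatu
      rw [Finset.sum_mul]
      refine Finset.sum_congr rfl fun w _ => ?_
      rw [Finset.sum_mul, Finset.mul_sum]
      refine Finset.sum_congr rfl fun x _ => ?_
      rw [Finset.mul_sum, Finset.mul_sum]
      refine Finset.sum_congr rfl fun z _ => ?_
      rw [dt_sub, dt_add, sub_eq_add_neg, ch_add, ch_add]
      ring
    simp_rw [h1]
    rw [Finset.sum_comm]
    have h3 : ∀ w : ZMod N × ZMod N, ∑ k : ZMod N × ZMod N, ∑ x, ∑ z,
        (K w : ℂ) * (u x : ℂ) * (u z : ℂ) * ch (dt k (w + x - z)) =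
        ∑ x, ∑ z, (K w : ℂ) * (u x : ℂ) * (u z : ℂ) *
          (if w + x - z = 0 then ((N : ℂ) ^ 2) else 0) := by
      intro w
      rw [Finset.sum_comm]
      refine Finset.sum_congr rfl fun x _ => ?_
      rw [Finset.sum_comm]
      refine Finset.sum_congr rfl fun z _ => ?_
      rw [← Finset.mul_sum, sum_ch]
    simp_rw [h3]
    rw [Finset.sum_comm]
    unfold frm
    push_cast
    rw [Finset.mul_sum]
    refine Finset.sum_congr rfl fun x _ => ?_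
    rw [Finset.sum_comm, Finset.mul_sum]
    refine Finset.sum_congr rfl fun z _ => ?_
    have h4 : ∀ w : ZMod N × ZMod N, (w + x - z = 0) ↔ (w = z - x) := by
      intro w
      constructor
      · intro h
        have : w = w + x - z + (z - x) := by abel
        rw [this, h, zero_add]
      · intro h
        rw [h]; abel
    simp_rw [h4]
    simp only [mul_ite, mul_zero]
    rw [Finset.sum_ite_eq']
    simp only [Finset.mem_univ, if_true]
    ring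
  have h5 := congrArg Complex.re key
  rw [Complex.ofReal_re] at h5
  rw [← h5, Complex.re_sum]
  refine Finset.sum_congr rfl fun k _ => ?_
  rw [Complex.mul_conj, Complex.re_mul_ofReal]
  congr 1
  rw [Complex.re_sum, Gh_dt]
  refine Finset.sum_congr rfl fun w _ => ?_
  rw [Complex.re_ofReal_mul, ch_re]

lemma frm_nonneg (K : ZMod N × ZMod N → ℝ) (hK : ∀ k, 0 ≤ Gh K k)
    (u : ZMod N × ZMod N → ℝ) : 0 ≤ frm K u := by
  have h := parseval K u
  have hN : (0 : ℝ) < (N : ℝ) ^ 2 := by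
    have : (0 : ℝ) < N := by exact_mod_cast NeZero.pos N
    positivity
  have h2 : 0 ≤ ∑ k, Gh K k * Complex.normSq (hatu u k) :=
    Finset.sum_nonneg fun k _ => mul_nonneg (hK k) (Complex.normSq_nonneg _)
  rw [← h] at h2
  exact nonneg_of_mul_nonneg_right h2 hN

/-! ### equivalence -/

def del (e w : ZMod N × ZMod N) : ℝ := if w = e then 1 else 0

lemma frm_del (e : ZMod N × ZMod N) (u : ZMod N × ZMod N → ℝ) :
    frm (del e) u = ∑ x, u x * u (x + e) := by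
  unfold frm del
  refine Finset.sum_congr rfl fun x _ => ?_
  have h4 : ∀ z : ZMod N × ZMod N, (z - x = e) ↔ (z = x + e) := by
    intro z
    constructor
    · intro h; rw [← h]; abel
    · intro h; rw [h]; abel
  simp_rw [h4]
  simp only [ite_mul, one_mul, zero_mul]
  rw [Finset.sum_ite_eq']
  simp

lemma Gh_del (e k : ZMod N × ZMod N) : Gh (del e) k = cN (dt k e) := by
  rw [Gh_dt]
  unfold del
  simp only [ite_mul, one_mul, zero_mul]
  rw [Finset.sum_ite_eq']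
  simp

lemma Q_eq (u : ZMod N × ZMod N → ℝ) (e : ZMod N × ZMod N) :
    Q u e = 2 * ∑ x, u x ^ 2 - 2 * ∑ x, u x * u (x + e) := by
  unfold Q
  have h : ∑ x, u (x + e) ^ 2 = ∑ x, u x ^ 2 :=
    Equiv.sum_comp (Equiv.addRight e) (fun x => u x ^ 2)
  have h2 : 2 * ∑ x, u x ^ 2 = ∑ x, u x ^ 2 + ∑ x, u (x + e) ^ 2 := by rw [h]; ring
  rw [h2, Finset.mul_sum, ← Finset.sum_add_distrib, ← Finset.sum_sub_distrib]
  exact Finset.sum_congr rfl fun x _ => by ring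

/-- kernel of `G - c₀ + c₁ (-Δ)`. -/
def shK (G : ZMod N × ZMod N → ℝ) (c0 c1 : ℝ) (w : ZMod N × ZMod N) : ℝ :=
  G w - c0 * del 0 w + c1 * (4 * del 0 w - 2 * del (1, 0) w - 2 * del (0, 1) w)

lemma frm_shK (G : ZMod N × ZMod N → ℝ) (c0 c1 : ℝ) (u : ZMod N × ZMod N → ℝ) :
    frm (shK G c0 c1) u = frm G u - c0 * (∑ x, u x ^ 2) + c1 * grd u := by
  have h0 := frm_del 0 u
  have h1 := frm_del (1, 0) u
  have h2 := frm_del (0, 1) u
  have h3 : frm (del 0) u = ∑ x, u x ^ 2 := by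
    rw [h0]
    exact Finset.sum_congr rfl fun x _ => by rw [add_zero]; ring
  have h4 : frm (shK G c0 c1) u = frm G u - c0 * frm (del 0) u +
      c1 * (4 * frm (del 0) u - 2 * frm (del (1, 0)) u - 2 * frm (del (0, 1)) u) := by
    unfold frm shK
    simp only [Finset.mul_sum]
    simp only [← Finset.sum_sub_distrib, ← Finset.sum_add_distrib, Finset.mul_sum]
    refine Finset.sum_congr rfl fun x _ => ?_
    refine Finset.sum_congr rfl fun z _ => ?_
    ring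
  rw [h4, h3, h1, h2]
  unfold grd
  rw [Q_eq u (1, 0), Q_eq u (0, 1)]
  ring

lemma Gh_shK (G : ZMod N × ZMod N → ℝ) (c0 c1 : ℝ) (k : ZMod N × ZMod N) :
    Gh (shK G c0 c1) k = Gh G k - c0 + c1 * EE k := by
  have h0 := Gh_del 0 k
  have h1 := Gh_del (1, 0) k
  have h2 := Gh_del (0, 1) k
  have e0 : dt k 0 = 0 := by simp [dt]
  have e1 : dt k (1, 0) = k.1 := by simp [dt]
  have e2 : dt k (0, 1) = k.2 := by simp [dt]
  rw [e0, cN_zero] at h0
  rw [e1] at h1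
  rw [e2] at h2
  have h4 : Gh (shK G c0 c1) k = Gh G k - c0 * Gh (del 0) k +
      c1 * (4 * Gh (del 0) k - 2 * Gh (del (1, 0)) k - 2 * Gh (del (0, 1)) k) := by
    simp only [Gh_dt]
    unfold shK
    simp only [Finset.mul_sum]
    simp only [← Finset.sum_sub_distrib, ← Finset.sum_add_distrib, Finset.mul_sum]
    refine Finset.sum_congr rfl fun x _ => ?_
    ring
  rw [h4, h0, h1, h2]
  unfold EE
  ring

lemma QK.qu {ξ : ℝ} {G : ZMod N × ZMod N → ℝ} {y a : ℝ} (h : QK ξ G y a) : QU ξ G y a := by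
  intro u
  have h1 : 0 ≤ frm (shK G ((1 - y) * ξ ^ 2) (a * ξ ^ 4)) u := by
    refine frm_nonneg _ (fun k => ?_) u
    rw [Gh_shK]
    have := h k
    linarith
  rw [frm_shK] at h1
  linarith

theorem QU_iff {ξ : ℝ} {G : ZMod N × ZMod N → ℝ} {y a : ℝ} : QU ξ G y a ↔ QK ξ G y a :=
  ⟨QU.qk, QK.qu⟩

lemma EE_nonneg (k : ZMod N × ZMod N) : 0 ≤ EE k := by
  unfold EE
  linarith [cN_le_one k.1, cN_le_one k.2]

lemma EE_zero : EE (0 : ZMod N × ZMod N) = 0 := by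
  unfold EE
  simp [cN_zero]

lemma cN_pw (j : ZMod N) : cN j = Real.cos (pw j) := by
  have h : ((j.valMinAbs : ℤ) : ZMod N) = j := ZMod.coe_valMinAbs j
  have h2 := cN_int (N := N) j.valMinAbs
  rw [h] at h2
  rw [h2]
  rfl

lemma EE_le (k : ZMod N × ZMod N) : EE k ≤ pw k.1 ^ 2 + pw k.2 ^ 2 := by
  unfold EE
  rw [cN_pw, cN_pw]
  have h1 := Real.one_sub_sq_div_two_le_cos (x := pw k.1)
  have h2 := Real.one_sub_sq_div_two_le_cos (x := pw k.2)
  linarith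

lemma QK.mono {ξ : ℝ} (_hξ : 0 ≤ ξ) {G : ZMod N × ZMod N → ℝ} {y a y' a' : ℝ} (h : QK ξ G y a)
    (hy : y ≤ y') (ha : a ≤ a') : QK ξ G y' a' := by
  intro k
  refine le_trans ?_ (h k)
  have h1 : (1 - y') * ξ ^ 2 ≤ (1 - y) * ξ ^ 2 := by gcongr
  have h2 : a * ξ ^ 4 * EE k ≤ a' * ξ ^ 4 * EE k := by
    have := EE_nonneg k
    gcongr
  linarith

/-- `(H0)`: `1 - y ≤ ε Ĝ(0)`. -/
lemma QK.zero {ξ : ℝ} {G : ZMod N × ZMod N → ℝ} {y a : ℝ} (h : QK ξ G y a) :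
    (1 - y) * ξ ^ 2 ≤ Gh G 0 := by
  have := h 0
  rw [EE_zero] at this
  linarith

/-- `(H1)`: `ε² (Ĝ(0) - Ĝ(j e₁)) ≤ y ε + a E(p_j)` (multiplied by `ξ⁴`). -/
lemma QK.axis {ξ : ℝ} {G : ZMod N × ZMod N → ℝ} {y a : ℝ} (h : QK ξ G y a)
    (h0 : Gh G 0 ≤ ξ ^ 2) (j : ZMod N) :
    DD G j ≤ y * ξ ^ 2 + a * ξ ^ 4 * (2 * (1 - cN j)) := by
  have h1 := h (j, 0)
  have h2 : EE ((j, 0) : ZMod N × ZMod N) = 2 * (1 - cN j) := by
    unfold EE; simp [cN_zero]
  rw [h2] at h1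
  unfold DD
  linarith

/-- converse: `(H0)` and `(H1)` on one axis give `QK`. -/
lemma QK.of_axis {ξ : ℝ} {G : ZMod N × ZMod N → ℝ} (hG : ∀ w, 0 ≤ G w)
    (hr : ∀ w, G (-w.1, w.2) = G w) (hs : ∀ w, G (w.2, w.1) = G w) {y0 y1 a : ℝ}
    (h0 : (1 - y0) * ξ ^ 2 ≤ Gh G 0)
    (h1 : ∀ j : ZMod N, DD G j ≤ y1 * ξ ^ 2 + a * ξ ^ 4 * (2 * (1 - cN j))) :
    QK ξ G (y0 + 2 * y1) a := by
  intro k
  have h2 := Gh_sub_le G hG hr hs k
  have h3 := h1 k.1
  have h4 := h1 k.2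
  unfold EE
  nlinarith

/-- `(H2)` with constant `C2`: the crude lower bound of `Ĝ(k)` in the window `|k_i| ≤ W/ξ`. -/
def H2 (C2 W ξ : ℝ) (G : ZMod N × ZMod N → ℝ) : Prop :=
  ∀ k : ZMod N × ZMod N, |pw k.1| ≤ W / ξ → |pw k.2| ≤ W / ξ →
    1 ≤ C2 * (1 / ξ ^ 2 + pw k.1 ^ 2 + pw k.2 ^ 2) * Gh G k

/-- The one scale hypothesis with constant `C2` and window `W`. -/
structure Hyp (C2 W ξ : ℝ) (G : ZMod N × ZMod N → ℝ) (y a : ℝ) : Prop where
  qu : QU ξ G y a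
  h2 : H2 C2 W ξ G

lemma H2.pos {C2 W ξ : ℝ} (hC : 0 ≤ C2) {G : ZMod N × ZMod N → ℝ} (h : H2 C2 W ξ G)
    (k : ZMod N × ZMod N) (h1 : |pw k.1| ≤ W / ξ) (h2 : |pw k.2| ≤ W / ξ) : 0 < Gh G k := by
  by_contra hneg
  push Not at hneg
  have h3 := h k h1 h2
  have h4 : 0 ≤ C2 * (1 / ξ ^ 2 + pw k.1 ^ 2 + pw k.2 ^ 2) := by positivity
  have := mul_nonpos_of_nonneg_of_nonpos h4 hneg
  linarith

lemma H2.mono {C2 C2' W ξ : ℝ} (hC : 0 ≤ C2) (hCC : C2 ≤ C2') {G : ZMod N × ZMod N → ℝ}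
    (h : H2 C2 W ξ G) : H2 C2' W ξ G := by
  intro k h1 h2
  refine (h k h1 h2).trans ?_
  have := (h.pos hC k h1 h2).le
  gcongr

/-- enlarging the constant to a strictly larger one makes `(H2)` strict. -/
lemma H2.strict {C2 C2' W ξ : ℝ} (hC : 0 ≤ C2) (hCC : C2 < C2') {G : ZMod N × ZMod N → ℝ}
    (h : H2 C2 W ξ G) (k : ZMod N × ZMod N) (h1 : |pw k.1| ≤ W / ξ) (h2 : |pw k.2| ≤ W / ξ) :
    1 < C2' * (1 / ξ ^ 2 + pw k.1 ^ 2 + pw k.2 ^ 2) * Gh G k := by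
  have h3 := h k h1 h2
  have h4 := h.pos hC k h1 h2
  have h5 : 0 < 1 / ξ ^ 2 + pw k.1 ^ 2 + pw k.2 ^ 2 := by
    by_contra hneg
    push Not at hneg
    have : C2 * (1 / ξ ^ 2 + pw k.1 ^ 2 + pw k.2 ^ 2) * Gh G k ≤ 0 :=
      mul_nonpos_of_nonpos_of_nonneg (mul_nonpos_of_nonneg_of_nonpos hC hneg) h4.le
    linarith
  have h6 : 0 < (C2' - C2) * (1 / ξ ^ 2 + pw k.1 ^ 2 + pw k.2 ^ 2) * Gh G k := by
    have : 0 < C2' - C2 := by linarith
    positivity
  nlinarith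

lemma Hyp.mono {C2 C2' W ξ : ℝ} (hC : 0 ≤ C2) (hCC : C2 ≤ C2') (hξ : 0 ≤ ξ)
    {G : ZMod N × ZMod N → ℝ} {y a y' a' : ℝ}
    (h : Hyp C2 W ξ G y a) (hy : y ≤ y') (ha : a ≤ a') : Hyp C2' W ξ G y' a' :=
  ⟨(h.qu.qk.mono hξ hy ha).qu, h.h2.mono hC hCC⟩

/-- `E7` on plane waves (416 `e7_scalar`): `G` = covariance at the larger mass `1/ξ²`,
`G'` = covariance at the smaller mass `1/ξ'²`. -/
def E7 (ξ ξ' : ℝ) (G G' : ZMod N × ZMod N → ℝ) : Prop :=
  ∀ k, Gh G k * (1 + (1 / ξ ^ 2 - 1 / ξ' ^ 2) * Gh G' k) ≤ Gh G' k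

/-- pointwise consequence of `E7`: a lower bound for `Ĝ'` from one for `Ĝ`. -/
lemma E7_low {e e' x x' v : ℝ} (he' : 0 < e') (hee : e' ≤ e) (hv : v < 1) (hv0 : 0 ≤ v)
    (hx : (1 - v) / e ≤ x) (h : x * (1 + (e - e') * x') ≤ x') (hx' : 0 ≤ x') :
    1 ≤ (e' + e * v / (1 - v)) * x' := by
  have he : 0 < e := lt_of_lt_of_le he' hee
  have h1 : 0 < 1 - v := by linarith
  have h2 : (1 - v) / e * (1 + (e - e') * x') ≤ x' := by
    refine le_trans ?_ h
    refine mul_le_mul_of_nonneg_right hx ?_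
    have := mul_nonneg (sub_nonneg.2 hee) hx'
    linarith
  have h3 : (1 - v) * (1 + (e - e') * x') ≤ e * x' := by
    rw [div_mul_eq_mul_div, div_le_iff₀ he] at h2
    linarith
  have h4 : (e' + e * v / (1 - v)) * x' = ((e' * (1 - v) + e * v) * x') / (1 - v) := by
    field_simp
  rw [h4, le_div_iff₀ h1]
  nlinarith

end

end Vale.Agent.P159.TM.H764
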