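import Vale.Agent.P159.TM.H764.StepQ
import Vale.Agent.P159.TM.H352.Aexp
import Vale.Agent.P159.TM.H164.AsmF

/-!
Row STEPQ, final form: `Frame.StepQ Frame.QL` from Theorem B alone (Theorem A: 352, part C: 164/907).
-/

namespace Vale.Agent.P159.TM.H764

/-- fourth moment in the standing range (352's summed form of Theorem A) -/
theorem m4Spec {b1 : ℝ} (hb1 : 0 < b1) (b2 a : ℝ) : M4Spec b1 b2 a := by
  obtain ⟨W0, c, C, ys, X, hc, hC, hys, hX, h⟩ := H352.thmAexp' hb1 b2 a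
  refine ⟨W0, fun W hW => ⟨c, 24 * C / c ^ 4, ys, X, hc, by positivity, hys, hX, ?_⟩⟩
  intro N _ b ξ y hR hN
  have hξ : (0 : ℝ) < ξ := by
    have : 1 ≤ ξ := hX.trans hR.hX
    exact_mod_cast this
  exact M4_of_exp (fun w => H41.G_nonneg (hb1.le.trans hR.hb1) hξ w) hc hξ (h W hW N b ξ y hR hN)

/-- **StepQ from Theorem B.** -/
theorem stepQ {b1 b2 δ : ℝ} (hb1 : 0 < b1) (hδ : 0 < δ)
    (hB : Spec.ThmB b1 b2 (Real.pi / 2)) : Frame.StepQ Frame.QL b1 b2 δ :=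
  stepQ_of hb1.le hδ le_rfl hB (m4Spec hb1 b2 _)
    fun _ _ _ _ hδ' hL hCb hcb => H164.stepC hb1.le hδ' hL hCb.le hcb

end Vale.Agent.P159.TM.H764
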