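import Vale.Agent.P159.TM.H764.Torus

/-!
Plane wave estimates on the torus `Z_N x Z_N` for a nonnegative symmetric kernel `G`.
-/

set_option linter.unusedSectionVars false

namespace Vale.Agent.P159.TM.H764

open Finset

noncomputable section

variable {N : ℕ} [NeZero N]

/-- `cos (2 π t / N)`. -/
def cN (t : ZMod N) : ℝ := Real.cos (2 * Real.pi * (t.val : ℝ) / N)

/-- `sin (2 π t / N)`. -/
def sN (t : ZMod N) : ℝ := Real.sin (2 * Real.pi * (t.val : ℝ) / N)

lemma val_int (m : ℤ) : ∃ q : ℤ, (m : ℝ) = ((m : ZMod N).val : ℝ) + (N : ℝ) * q := by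
  refine ⟨m / N, ?_⟩
  have h : (((m : ZMod N).val : ℕ) : ℤ) = m % (N : ℤ) := ZMod.val_intCast m
  have h2 : (m : ℤ) = m % (N : ℤ) + (N : ℤ) * (m / N) := (Int.emod_add_mul_ediv m N).symm
  have h3 : (m : ℝ) = ((m % (N : ℤ) : ℤ) : ℝ) + (N : ℝ) * ((m / N : ℤ) : ℝ) := by
    exact_mod_cast h2
  rw [h3, ← h]
  push_cast
  have : ((m / N : ℤ) : ℝ) = ((m / N : ℤ) : ℝ) := rfl
  simp

lemma N_ne : (N : ℝ) ≠ 0 := by
  exact_mod_cast NeZero.ne N

lemma cN_int (m : ℤ) : cN (m : ZMod N) = Real.cos (2 * Real.pi * m / N) := by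
  obtain ⟨q, hq⟩ := val_int (N := N) m
  unfold cN
  rw [hq]
  have : 2 * Real.pi * (((m : ZMod N).val : ℝ) + (N : ℝ) * q) / N =
      2 * Real.pi * ((m : ZMod N).val : ℝ) / N + q * (2 * Real.pi) := by
    have := N_ne (N := N)
    field_simp
  rw [this, Real.cos_add_int_mul_two_pi]

lemma sN_int (m : ℤ) : sN (m : ZMod N) = Real.sin (2 * Real.pi * m / N) := by
  obtain ⟨q, hq⟩ := val_int (N := N) m
  unfold sN
  rw [hq]
  have : 2 * Real.pi * (((m : ZMod N).val : ℝ) + (N : ℝ) * q) / N =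
      2 * Real.pi * ((m : ZMod N).val : ℝ) / N + q * (2 * Real.pi) := by
    have := N_ne (N := N)
    field_simp
  rw [this, Real.sin_add_int_mul_two_pi]

lemma exists_int (a : ZMod N) : ∃ m : ℤ, (m : ZMod N) = a := ⟨a.valMinAbs, by simp⟩

lemma cN_zero : cN (0 : ZMod N) = 1 := by
  have := cN_int (N := N) 0
  simpa using this

lemma sN_zero : sN (0 : ZMod N) = 0 := by
  have := sN_int (N := N) 0
  simpa using this

lemma cN_add (a b : ZMod N) : cN (a + b) = cN a * cN b - sN a * sN b := by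
  obtain ⟨m, rfl⟩ := exists_int a
  obtain ⟨n, rfl⟩ := exists_int b
  rw [← Int.cast_add, cN_int, cN_int, cN_int, sN_int, sN_int, ← Real.cos_add]
  congr 1
  push_cast
  ring

lemma cN_neg (a : ZMod N) : cN (-a) = cN a := by
  obtain ⟨m, rfl⟩ := exists_int a
  rw [← Int.cast_neg, cN_int, cN_int, ← Real.cos_neg]
  congr 1
  push_cast
  ring

lemma sN_neg (a : ZMod N) : sN (-a) = -sN a := by
  obtain ⟨m, rfl⟩ := exists_int a
  rw [← Int.cast_neg, sN_int, sN_int, ← Real.sin_neg]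
  congr 1
  push_cast
  ring

lemma cN_le_one (a : ZMod N) : cN a ≤ 1 := Real.cos_le_one _

lemma neg_one_le_cN (a : ZMod N) : -1 ≤ cN a := Real.neg_one_le_cos _

/-- the plane wave transform of `G`. -/
def Gh (G : ZMod N × ZMod N → ℝ) (k : ZMod N × ZMod N) : ℝ :=
  ∑ w, G w * cN (k.1 * w.1 + k.2 * w.2)

lemma Gh_zero (G : ZMod N × ZMod N → ℝ) : Gh G 0 = ∑ w, G w := by
  unfold Gh
  refine Finset.sum_congr rfl fun w _ => ?_
  simp [cN_zero]

/-- symmetric kernels: the transform is a product cosine transform. -/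
lemma Gh_prod (G : ZMod N × ZMod N → ℝ) (hr : ∀ w, G (-w.1, w.2) = G w)
    (k : ZMod N × ZMod N) : Gh G k = ∑ w, G w * (cN (k.1 * w.1) * cN (k.2 * w.2)) := by
  have h1 : Gh G k = ∑ w, G w * cN (-(k.1 * w.1) + k.2 * w.2) := by
    unfold Gh
    rw [← Equiv.sum_comp refl1]
    refine Finset.sum_congr rfl fun w _ => ?_
    rw [refl1_apply, hr w]
    simp only [mul_neg]
  have h2 : Gh G k + Gh G k = ∑ w, G w * (cN (k.1 * w.1) * cN (k.2 * w.2)) +
      ∑ w, G w * (cN (k.1 * w.1) * cN (k.2 * w.2)) := by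
    nth_rewrite 2 [h1]
    unfold Gh
    rw [← Finset.sum_add_distrib, ← Finset.sum_add_distrib]
    refine Finset.sum_congr rfl fun w _ => ?_
    rw [cN_add, cN_add, cN_neg, sN_neg]
    ring
  linarith

lemma Gh_axis (G : ZMod N × ZMod N → ℝ) (j : ZMod N) :
    Gh G (j, 0) = ∑ w, G w * cN (j * w.1) := by
  unfold Gh
  refine Finset.sum_congr rfl fun w _ => ?_
  simp

lemma Gh_axis2 (G : ZMod N × ZMod N → ℝ) (hs : ∀ w, G (w.2, w.1) = G w) (j : ZMod N) :
    Gh G (0, j) = Gh G (j, 0) := by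
  unfold Gh
  rw [← Equiv.sum_comp (Equiv.prodComm _ _)]
  refine Finset.sum_congr rfl fun w _ => ?_
  simp only [Equiv.prodComm_apply, Prod.swap, hs w]
  simp

/-- `Ĝ(k) ≤ Ĝ(0)`. -/
lemma Gh_le (G : ZMod N × ZMod N → ℝ) (hG : ∀ w, 0 ≤ G w) (k : ZMod N × ZMod N) :
    Gh G k ≤ Gh G 0 := by
  rw [Gh_zero]
  refine Finset.sum_le_sum fun w _ => ?_
  have := mul_le_mul_of_nonneg_left (cN_le_one (k.1 * w.1 + k.2 * w.2)) (hG w)
  simpa using this

/-- `D(p_j) / ε² = Ĝ(0) - Ĝ(j e₁) = ∑ G(w) (1 - cos (p_j w₁))`. -/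
def DD (G : ZMod N × ZMod N → ℝ) (j : ZMod N) : ℝ := Gh G 0 - Gh G (j, 0)

lemma DD_eq (G : ZMod N × ZMod N → ℝ) (j : ZMod N) :
    DD G j = ∑ w, G w * (1 - cN (j * w.1)) := by
  unfold DD
  rw [Gh_zero, Gh_axis, ← Finset.sum_sub_distrib]
  exact Finset.sum_congr rfl fun w _ => by ring

lemma DD_nonneg (G : ZMod N × ZMod N → ℝ) (hG : ∀ w, 0 ≤ G w) (j : ZMod N) : 0 ≤ DD G j := by
  unfold DD
  linarith [Gh_le G hG (j, 0)]

/-- **All directions from one axis, constant one.** -/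
theorem Gh_sub_le (G : ZMod N × ZMod N → ℝ) (hG : ∀ w, 0 ≤ G w)
    (hr : ∀ w, G (-w.1, w.2) = G w) (hs : ∀ w, G (w.2, w.1) = G w) (k : ZMod N × ZMod N) :
    Gh G 0 - Gh G k ≤ DD G k.1 + DD G k.2 := by
  unfold DD
  rw [← Gh_axis2 G hs k.2, Gh_prod G hr k, Gh_prod G hr (k.1, 0), Gh_prod G hr (0, k.2), Gh_zero,
    ← Finset.sum_sub_distrib, ← Finset.sum_sub_distrib, ← Finset.sum_sub_distrib,
    ← Finset.sum_add_distrib]
  refine Finset.sum_le_sum fun w _ => ?_
  simp only [zero_mul, cN_zero, mul_one, one_mul]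
  have h1 : 0 ≤ (1 - cN (k.1 * w.1)) * (1 - cN (k.2 * w.2)) :=
    mul_nonneg (by linarith [cN_le_one (k.1 * w.1)]) (by linarith [cN_le_one (k.2 * w.2)])
  have h2 := mul_nonneg (hG w) h1
  nlinarith

/-- `1 - cos (m x) ≤ m² (1 - cos x)`. -/
lemma one_sub_cos_nat (m : ℕ) (x : ℝ) :
    1 - Real.cos (m * x) ≤ (m : ℝ) ^ 2 * (1 - Real.cos x) := by
  have h : ∀ m : ℕ, |Real.sin (m * (x / 2))| ≤ m * |Real.sin (x / 2)| := by
    intro m
    induction m with
    | zero => simp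
    | succ m ih =>
      have : ((m + 1 : ℕ) : ℝ) * (x / 2) = m * (x / 2) + x / 2 := by push_cast; ring
      rw [this, Real.sin_add]
      calc |Real.sin (↑m * (x / 2)) * Real.cos (x / 2) + Real.cos (↑m * (x / 2)) * Real.sin (x / 2)|
          ≤ |Real.sin (↑m * (x / 2)) * Real.cos (x / 2)| +
            |Real.cos (↑m * (x / 2)) * Real.sin (x / 2)| := abs_add_le _ _
        _ ≤ |Real.sin (↑m * (x / 2))| * 1 + 1 * |Real.sin (x / 2)| := by
            rw [abs_mul, abs_mul]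
            gcongr
            · exact Real.abs_cos_le_one _
            · exact Real.abs_cos_le_one _
        _ ≤ _ := by push_cast; linarith
  have e1 : 1 - Real.cos (m * x) = 2 * |Real.sin (m * (x / 2))| ^ 2 := by
    rw [sq_abs, Real.sin_sq_eq_half_sub]
    have : 2 * (↑m * (x / 2)) = m * x := by ring
    rw [this]; ring
  have e2 : 1 - Real.cos x = 2 * |Real.sin (x / 2)| ^ 2 := by
    rw [sq_abs, Real.sin_sq_eq_half_sub]
    have : 2 * (x / 2) = x := by ring
    rw [this]; ring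
  rw [e1, e2]
  have := pow_le_pow_left₀ (abs_nonneg _) (h m) 2
  rw [mul_pow] at this
  linarith

lemma one_sub_cos_int (m : ℤ) (x : ℝ) :
    1 - Real.cos (m * x) ≤ (m : ℝ) ^ 2 * (1 - Real.cos x) := by
  obtain ⟨n, rfl | rfl⟩ := m.eq_nat_or_neg
  · exact_mod_cast one_sub_cos_nat n x
  · have := one_sub_cos_nat n x
    push_cast
    rw [neg_mul, Real.cos_neg, neg_sq]
    exact this

/-- `cos (p_j w)` through integer representatives. -/
lemma cN_mul (j : ℤ) (w : ZMod N) :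
    cN ((j : ZMod N) * w) = Real.cos (2 * Real.pi * j / N * w.valMinAbs) := by
  have h : (w.valMinAbs : ZMod N) = w := by simp
  have : (j : ZMod N) * w = ((j * w.valMinAbs : ℤ) : ZMod N) := by
    rw [Int.cast_mul, h]
  rw [this, cN_int]
  congr 1
  push_cast
  ring

/-- second and fourth moments. -/
def M2 (G : ZMod N × ZMod N → ℝ) : ℝ := ∑ w, (w.1.valMinAbs : ℝ) ^ 2 * G w

def M4 (G : ZMod N × ZMod N → ℝ) : ℝ := ∑ w, (w.1.valMinAbs : ℝ) ^ 4 * G w

/-- upper bound of `D` by the second moment (lattice symbol). -/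
theorem DD_le (G : ZMod N × ZMod N → ℝ) (hG : ∀ w, 0 ≤ G w) (j : ℤ) :
    DD G (j : ZMod N) ≤ M2 G * (1 - Real.cos (2 * Real.pi * j / N)) := by
  rw [DD_eq, M2, Finset.sum_mul]
  refine Finset.sum_le_sum fun w _ => ?_
  rw [cN_mul]
  have := one_sub_cos_int w.1.valMinAbs (2 * Real.pi * j / N)
  rw [mul_comm (w.1.valMinAbs : ℝ) _] at this
  have := mul_le_mul_of_nonneg_left this (hG w)
  linarith

theorem DD_le' (G : ZMod N × ZMod N → ℝ) (hG : ∀ w, 0 ≤ G w) (j : ℤ) :
    DD G (j : ZMod N) ≤ M2 G * ((2 * Real.pi * j / N) ^ 2 / 2) := by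
  refine (DD_le G hG j).trans (mul_le_mul_of_nonneg_left ?_ ?_)
  · have := Real.one_sub_sq_div_two_le_cos (x := 2 * Real.pi * j / N)
    linarith
  · exact Finset.sum_nonneg fun w _ => mul_nonneg (by positivity) (hG w)

/-- `1 - cos x ≥ x²/2 - x⁴/24`. -/
lemma one_sub_cos_ge (x : ℝ) : x ^ 2 / 2 - x ^ 4 / 24 ≤ 1 - Real.cos x := by
  have key : ∀ y : ℝ, 0 ≤ y → y ^ 2 / 2 - y ^ 4 / 24 ≤ 1 - Real.cos y := by
    intro y hy
    have h1 : ∀ t : ℝ, 0 ≤ t → t - t ^ 3 / 6 ≤ Real.sin t := by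
      intro t ht
      have hd : ∀ s : ℝ, HasDerivAt (fun s => Real.sin s - (s - s ^ 3 / 6))
          (Real.cos s - (1 - s ^ 2 / 2)) s := by
        intro s
        have h := (Real.hasDerivAt_sin s).sub
          ((hasDerivAt_id s).sub (((hasDerivAt_id s).pow 3).div_const 6))
        refine h.congr_deriv ?_
        simp
        ring
      have hm : MonotoneOn (fun s => Real.sin s - (s - s ^ 3 / 6)) (Set.Ici 0) := by
        refine monotoneOn_of_deriv_nonneg (convex_Ici 0) ?_ ?_ ?_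
        · exact fun s _ => (hd s).continuousAt.continuousWithinAt
        · exact fun s _ => (hd s).differentiableAt.differentiableWithinAt
        · intro s _
          rw [(hd s).deriv]
          linarith [Real.one_sub_sq_div_two_le_cos (x := s)]
      have := hm (Set.mem_Ici.2 le_rfl) (Set.mem_Ici.2 ht) ht
      simp at this
      linarith
    have hd : ∀ s : ℝ, HasDerivAt (fun s => (1 - Real.cos s) - (s ^ 2 / 2 - s ^ 4 / 24))
        (Real.sin s - (s - s ^ 3 / 6)) s := by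
      intro s
      have h := ((hasDerivAt_const s (1 : ℝ)).sub (Real.hasDerivAt_cos s)).sub
        ((((hasDerivAt_id s).pow 2).div_const 2).sub (((hasDerivAt_id s).pow 4).div_const 24))
      refine h.congr_deriv ?_
      simp
      ring
    have hm : MonotoneOn (fun s => (1 - Real.cos s) - (s ^ 2 / 2 - s ^ 4 / 24)) (Set.Ici 0) := by
      refine monotoneOn_of_deriv_nonneg (convex_Ici 0) ?_ ?_ ?_
      · exact fun s _ => (hd s).continuousAt.continuousWithinAt
      · exact fun s _ => (hd s).differentiableAt.differentiableWithinAt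
      · intro s hs
        rw [(hd s).deriv]
        rw [interior_Ici] at hs
        linarith [h1 s (le_of_lt hs)]
    have := hm (Set.mem_Ici.2 le_rfl) (Set.mem_Ici.2 hy) hy
    simp at this
    linarith
  rcases le_total 0 x with h | h
  · exact key x h
  · have := key (-x) (by linarith)
    rw [Real.cos_neg] at this
    have e1 : (-x) ^ 2 = x ^ 2 := by ring
    have e2 : (-x) ^ 4 = x ^ 4 := by ring
    rwa [e1, e2] at this

/-- lower bound of `D` by the second moment minus the fourth. -/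
theorem DD_ge (G : ZMod N × ZMod N → ℝ) (hG : ∀ w, 0 ≤ G w) (j : ℤ) :
    M2 G * ((2 * Real.pi * j / N) ^ 2 / 2) - M4 G * ((2 * Real.pi * j / N) ^ 4 / 24)
      ≤ DD G (j : ZMod N) := by
  rw [DD_eq, M2, M4, Finset.sum_mul, Finset.sum_mul, ← Finset.sum_sub_distrib]
  refine Finset.sum_le_sum fun w _ => ?_
  rw [cN_mul]
  have := one_sub_cos_ge (2 * Real.pi * j / N * w.1.valMinAbs)
  have := mul_le_mul_of_nonneg_left this (hG w)
  nlinarith

end

end Vale.Agent.P159.TM.H764
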