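import Vale.Agent.P159.TM.H764.Inh

/-!
Chord half of the step: slope of the self energy at the mass `1/(Mξ)²` on the torus of side
`N = K M ξ`, from `QU` at the mass `1/ξ²`, `E7` and the fourth moment.
-/

set_option linter.unusedSectionVars false

namespace Vale.Agent.P159.TM.H764

open Finset

noncomputable section

variable {N : ℕ} [NeZero N]

/-- `<u, G u> = (∑ G) |u|² - (1/2) ∑_w G(w) |u - u(·+w)|²`. -/
lemma frm_eq (G u : ZMod N × ZMod N → ℝ) :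
    frm G u = (∑ w, G w) * (∑ x, u x ^ 2) - (1 / 2) * ∑ w, G w * Q u w := by
  have h1 : frm G u = ∑ w, G w * ∑ x, u x * u (x + w) := by
    unfold frm
    simp_rw [Finset.mul_sum]
    rw [Finset.sum_comm (s := univ) (t := univ) (f := fun w x => G w * (u x * u (x + w)))]
    refine Finset.sum_congr rfl fun x _ => ?_
    rw [← Equiv.sum_comp (Equiv.subRight x) (fun w => G w * (u x * u (x + w)))]
    refine Finset.sum_congr rfl fun z _ => ?_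
    simp only [Equiv.subRight_apply, add_sub_cancel]
    ring
  rw [h1, Finset.sum_mul, Finset.mul_sum, ← Finset.sum_sub_distrib]
  refine Finset.sum_congr rfl fun w _ => ?_
  rw [Q_eq]
  ring

/-- **`QU` with the exact activity and the exact second moment.** -/
theorem QU_of_moments {ξ y : ℝ} (hξ : 0 < ξ) (G : ZMod N × ZMod N → ℝ) (hG : ∀ w, 0 ≤ G w)
    (hr : ∀ w, G (-w.1, w.2) = G w) (hs : ∀ w, G (w.2, w.1) = G w)
    (hy : (1 - y) * ξ ^ 2 ≤ ∑ w, G w) : QU ξ G y (M2 G / (2 * ξ ^ 4)) := by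
  intro u
  have h1 := dirichlet_le G hG hr hs u
  rw [frm_eq]
  have h2 : 0 ≤ ∑ x, u x ^ 2 := Finset.sum_nonneg fun x _ => sq_nonneg _
  have h3 : (1 - y) * ξ ^ 2 * (∑ x, u x ^ 2) ≤ (∑ w, G w) * (∑ x, u x ^ 2) := by gcongr
  have h4 : M2 G / (2 * ξ ^ 4) * ξ ^ 4 * grd u = (1 / 2) * (M2 G * grd u) := by
    field_simp
  rw [h4]
  have h5 : ∑ w, G w * Q u w ≤ M2 G * grd u := h1
  linarith

/-- **The chord at a torus mode.** -/
theorem slope_le {ξ M y a θ C : ℝ} (hξ : 0 < ξ) (hM : 1 ≤ M) {G G' : ZMod N × ZMod N → ℝ}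
    (hG' : ∀ w, 0 ≤ G' w) (hpos : ∀ k, 0 ≤ Gh G' k) (htot : Gh G' 0 ≤ (M * ξ) ^ 2)
    (h : QK ξ G y a) (hE : E7 ξ (M * ξ) G G') (hM4 : M4 G' ≤ C * (M * ξ) ^ 6)
    (hy : 0 ≤ y) (ha : 0 ≤ a) (hθ : 0 < θ) (j : ℕ)
    (hj1 : θ ≤ 2 * Real.pi * j / N * (M * ξ)) (hj2 : 2 * Real.pi * j / N * (M * ξ) ≤ 2 * θ)
    (hv : y + 4 * a * θ ^ 2 / M ^ 2 ≤ 1 / 2) :
    M2 G' / (2 * (M * ξ) ^ 4) ≤
      C * θ ^ 2 / 6 + (M ^ 2 * y / θ ^ 2 + a) / (1 - y - 4 * a * θ ^ 2 / M ^ 2) := by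
  have hM0 : 0 < M := by linarith
  set ξ' := M * ξ with hξ'
  have hξ0 : 0 < ξ' := by rw [hξ']; positivity
  set p : ℝ := 2 * Real.pi * j / N with hp
  have hp0 : 0 < p := by
    by_contra hneg
    push Not at hneg
    have : p * ξ' ≤ 0 := mul_nonpos_of_nonpos_of_nonneg hneg hξ0.le
    linarith
  have hpθ : p ^ 2 * ξ' ^ 2 ≤ 4 * θ ^ 2 := by
    have h0 : 0 ≤ p * ξ' := by positivity
    have := pow_le_pow_left₀ h0 hj2 2
    calc p ^ 2 * ξ' ^ 2 = (p * ξ') ^ 2 := by ring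
      _ ≤ (2 * θ) ^ 2 := this
      _ = 4 * θ ^ 2 := by ring
  have hpθ2 : θ ^ 2 ≤ p ^ 2 * ξ' ^ 2 := by
    have := pow_le_pow_left₀ hθ.le hj1 2
    calc θ ^ 2 ≤ (p * ξ') ^ 2 := this
      _ = _ := by ring
  -- the mode
  have hcos : cN ((j : ℕ) : ZMod N) = Real.cos p := by
    have := cN_int (N := N) (j : ℤ)
    rw [Int.cast_natCast] at this
    rw [this, hp]
    push_cast
    rfl
  have hEE : EE (((j : ℕ) : ZMod N), (0 : ZMod N)) ≤ p ^ 2 := by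
    unfold EE
    simp only [cN_zero, sub_self, mul_zero, add_zero]
    rw [hcos]
    have := Real.one_sub_sq_div_two_le_cos (x := p)
    linarith
  have hE0 := EE_nonneg (((j : ℕ) : ZMod N), (0 : ZMod N))
  set E := EE (((j : ℕ) : ZMod N), (0 : ZMod N)) with hEd
  set x' := Gh G' (((j : ℕ) : ZMod N), (0 : ZMod N)) with hx'
  have hx0 : 0 ≤ x' := hpos _
  set c : ℝ := 1 - y - 4 * a * θ ^ 2 / M ^ 2 with hc
  have hc0 : 0 < c := by rw [hc]; linarith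
  set v : ℝ := y + a * ξ ^ 2 * E with hv'
  have hv0 : 0 ≤ v := by rw [hv']; positivity
  have hvc : v ≤ 1 - c := by
    have h1 : a * ξ ^ 2 * E ≤ 4 * a * θ ^ 2 / M ^ 2 := by
      rw [le_div_iff₀ (by positivity)]
      calc a * ξ ^ 2 * E * M ^ 2 ≤ a * ξ ^ 2 * p ^ 2 * M ^ 2 := by gcongr
        _ = a * (p ^ 2 * ξ' ^ 2) := by rw [hξ']; ring
        _ ≤ a * (4 * θ ^ 2) := by gcongr
        _ = 4 * a * θ ^ 2 := by ring
    rw [hv', hc]; linarith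
  have hv1 : v < 1 := by linarith
  have hlow : (1 - v) / (1 / ξ ^ 2) ≤ Gh G (((j : ℕ) : ZMod N), (0 : ZMod N)) := by
    have h4 := h (((j : ℕ) : ZMod N), (0 : ZMod N))
    rw [← hEd] at h4
    have h5 : (1 - v) / (1 / ξ ^ 2) = (1 - y) * ξ ^ 2 - a * ξ ^ 4 * E := by
      rw [hv']; field_simp; ring
    rw [h5]; exact h4
  have he' : (0 : ℝ) < 1 / ξ' ^ 2 := by positivity
  have hee : 1 / ξ' ^ 2 ≤ 1 / ξ ^ 2 := by
    apply one_div_le_one_div_of_le (by positivity)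
    have : ξ ≤ ξ' := by rw [hξ']; nlinarith
    gcongr
  have h6 := E7_low he' hee hv1 hv0 hlow (hE _) hx0
  rw [← hx'] at h6
  have h7 : 1 / ξ ^ 2 * v / (1 - v) ≤ 1 / ξ ^ 2 * v / c := by
    have : c ≤ 1 - v := by linarith
    gcongr
  set P := 1 / ξ ^ 2 * v / c with hP
  have hP0 : 0 ≤ P := by rw [hP]; positivity
  have h8 : 1 ≤ (1 / ξ' ^ 2 + P) * x' := by
    refine h6.trans ?_
    gcongr
  have h9 : ξ' ^ 2 - ξ' ^ 4 * P ≤ x' := by
    set L := ξ' ^ 2 with hL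
    have hL0 : 0 < L := by rw [hL]; positivity
    have hL4 : ξ' ^ 4 = L ^ 2 := by rw [hL]; ring
    rw [hL4]
    have h10 : L ≤ (1 + L * P) * x' := by
      have h11 : (1 + L * P) * x' = L * ((1 / L + P) * x') := by
        field_simp
      rw [h11]
      calc L = L * 1 := by ring
        _ ≤ _ := by gcongr
    have hden : 0 < 1 + L * P := by positivity
    have h12 : (1 + L * P) * (L - L ^ 2 * P) ≤ (1 + L * P) * x' := by
      have : (1 + L * P) * (L - L ^ 2 * P) = L - L * (L * P) ^ 2 := by ring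
      rw [this]
      have : 0 ≤ L * (L * P) ^ 2 := by positivity
      linarith
    exact le_of_mul_le_mul_left h12 hden
  -- chord
  have h13 := DD_ge G' hG' (j : ℤ)
  rw [Int.cast_natCast, Int.cast_natCast] at h13
  have hpj : 2 * Real.pi * (j : ℝ) / N = p := rfl
  rw [hpj] at h13
  have h14 : DD G' ((j : ℕ) : ZMod N) ≤ ξ' ^ 4 * P := by
    unfold DD
    rw [← hx']
    linarith
  have h15 : M4 G' * (p ^ 4 / 24) ≤ C * ξ' ^ 6 * (p ^ 4 / 24) := by gcongr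
  have h16 : M2 G' * (p ^ 2 / 2) ≤ ξ' ^ 4 * P + C * ξ' ^ 6 * (p ^ 4 / 24) := by linarith
  have hC0 : 0 ≤ C := by
    have : 0 ≤ M4 G' := Finset.sum_nonneg fun w _ => mul_nonneg (by positivity) (hG' w)
    by_contra hneg
    push Not at hneg
    have : C * ξ' ^ 6 < 0 := mul_neg_of_neg_of_pos hneg (by positivity)
    linarith
  have h17 : M2 G' / (2 * ξ' ^ 4) ≤ P / p ^ 2 + C * ξ' ^ 2 * p ^ 2 / 24 := by
    rw [div_le_iff₀ (by positivity)]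
    have e : (P / p ^ 2 + C * ξ' ^ 2 * p ^ 2 / 24) * (2 * ξ' ^ 4) =
        (ξ' ^ 4 * P + C * ξ' ^ 6 * (p ^ 4 / 24)) / (p ^ 2 / 2) := by
      field_simp
    rw [e, le_div_iff₀ (by positivity)]
    exact h16
  have h18 : P / p ^ 2 ≤ (M ^ 2 * y / θ ^ 2 + a) / c := by
    have e : P / p ^ 2 = (y / (ξ ^ 2 * p ^ 2) + a * (E / p ^ 2)) / c := by
      rw [hP, hv']
      field_simp
    rw [e]
    have h19 : y / (ξ ^ 2 * p ^ 2) ≤ M ^ 2 * y / θ ^ 2 := by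
      rw [div_le_div_iff₀ (by positivity) (by positivity)]
      calc y * θ ^ 2 ≤ y * (p ^ 2 * ξ' ^ 2) := by gcongr
        _ = M ^ 2 * y * (ξ ^ 2 * p ^ 2) := by rw [hξ']; ring
    have h20 : E / p ^ 2 ≤ 1 := by
      rw [div_le_one (by positivity)]; exact hEE
    have h21 : a * (E / p ^ 2) ≤ a := by
      calc a * (E / p ^ 2) ≤ a * 1 := by gcongr
        _ = a := mul_one a
    gcongr
  have h22 : C * ξ' ^ 2 * p ^ 2 / 24 ≤ C * θ ^ 2 / 6 := by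
    calc C * ξ' ^ 2 * p ^ 2 / 24 = C * (p ^ 2 * ξ' ^ 2) / 24 := by ring
      _ ≤ C * (4 * θ ^ 2) / 24 := by gcongr
      _ = C * θ ^ 2 / 6 := by ring
  linarith

lemma num_one {C K : ℝ} (hC : 0 ≤ C) (hK : 0 < K) :
    C * (2 * Real.pi / K) ^ 2 / 6 ≤ 7 * C * (1 / K ^ 2) := by
  have hπ := Real.pi_pos
  have hπ2 : Real.pi ^ 2 < 9.87 := by
    have h7 : Real.pi < 3.1416 := Real.pi_lt_d4
    nlinarith
  have h1 : C * (2 * Real.pi / K) ^ 2 / 6 = (4 * Real.pi ^ 2 / 6) * (C * (1 / K ^ 2)) := by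
    rw [div_pow, mul_pow]
    ring
  have h2 : 4 * Real.pi ^ 2 / 6 ≤ 7 := by linarith
  have h3 : 0 ≤ C * (1 / K ^ 2) := by positivity
  rw [h1]
  calc (4 * Real.pi ^ 2 / 6) * (C * (1 / K ^ 2)) ≤ 7 * (C * (1 / K ^ 2)) :=
        mul_le_mul_of_nonneg_right h2 h3
    _ = _ := by ring

lemma num_two {K M y : ℝ} (hK : 0 < K) (hy : 0 ≤ y) :
    2 * (M ^ 2 * y / (2 * Real.pi / K) ^ 2) ≤ K ^ 2 * M ^ 2 * y := by
  have hπ := Real.pi_pos
  have hπ3 : 9 < Real.pi ^ 2 := by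
    have h7 : 3 < Real.pi := Real.pi_gt_three
    nlinarith
  have h1 : 2 * (M ^ 2 * y / (2 * Real.pi / K) ^ 2) =
      (1 / (2 * Real.pi ^ 2)) * (K ^ 2 * M ^ 2 * y) := by
    rw [div_pow, mul_pow]
    field_simp
  have h2 : 1 / (2 * Real.pi ^ 2) ≤ 1 := by
    rw [div_le_one (by positivity)]; linarith
  have h3 : 0 ≤ K ^ 2 * M ^ 2 * y := by positivity
  rw [h1]
  calc (1 / (2 * Real.pi ^ 2)) * (K ^ 2 * M ^ 2 * y) ≤ 1 * (K ^ 2 * M ^ 2 * y) :=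
        mul_le_mul_of_nonneg_right h2 h3
    _ = _ := one_mul _

lemma num_three {K M y a A s : ℝ} (hK : 1 ≤ K) (hM : 1 ≤ M) (hy : 0 ≤ y) (ha : 0 ≤ a)
    (haA : a ≤ A) (hs : s ≤ y + 4 * a * (2 * Real.pi / K) ^ 2) :
    2 * a * s ≤ 2 * A * (K ^ 2 * M ^ 2 * y) + 320 * A ^ 2 * (1 / K ^ 2) := by
  have hπ := Real.pi_pos
  have hK0 : 0 < K := by linarith
  have hA0 : 0 ≤ A := ha.trans haA
  have hπ2 : Real.pi ^ 2 < 9.87 := by
    have h7 : Real.pi < 3.1416 := Real.pi_lt_d4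
    nlinarith
  have hKM : y ≤ K ^ 2 * M ^ 2 * y := by
    have h9 : 1 ≤ K ^ 2 * M ^ 2 :=
      one_le_mul_of_one_le_of_one_le (one_le_pow₀ hK) (one_le_pow₀ hM)
    calc y = 1 * y := (one_mul y).symm
      _ ≤ K ^ 2 * M ^ 2 * y := mul_le_mul_of_nonneg_right h9 hy
  have h1 : 4 * a * (2 * Real.pi / K) ^ 2 ≤ 4 * A * (2 * Real.pi / K) ^ 2 := by
    have : 0 ≤ (2 * Real.pi / K) ^ 2 := by positivity
    exact mul_le_mul_of_nonneg_right (by linarith) this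
  have h2 : 0 ≤ y + 4 * A * (2 * Real.pi / K) ^ 2 := by positivity
  have h3 : 2 * a * s ≤ 2 * A * (y + 4 * A * (2 * Real.pi / K) ^ 2) := by
    have h4 : s ≤ y + 4 * A * (2 * Real.pi / K) ^ 2 := by linarith
    calc 2 * a * s ≤ 2 * a * (y + 4 * A * (2 * Real.pi / K) ^ 2) :=
          mul_le_mul_of_nonneg_left h4 (by positivity)
      _ ≤ 2 * A * (y + 4 * A * (2 * Real.pi / K) ^ 2) :=
          mul_le_mul_of_nonneg_right (by linarith) h2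
  have h5 : 2 * A * (y + 4 * A * (2 * Real.pi / K) ^ 2) =
      2 * A * y + (32 * Real.pi ^ 2) * (A ^ 2 * (1 / K ^ 2)) := by
    rw [div_pow, mul_pow]
    ring
  have h6 : (32 * Real.pi ^ 2) * (A ^ 2 * (1 / K ^ 2)) ≤ 320 * (A ^ 2 * (1 / K ^ 2)) :=
    mul_le_mul_of_nonneg_right (by linarith) (by positivity)
  have h7 : 2 * A * y ≤ 2 * A * (K ^ 2 * M ^ 2 * y) :=
    mul_le_mul_of_nonneg_left hKM (by positivity)
  linarith

lemma num_four {t a s : ℝ} (ht : 0 ≤ t) (ha : 0 ≤ a) (hs0 : 0 ≤ s) (hs : s ≤ 1 / 2) :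
    (t + a) / (1 - s) ≤ a + 2 * t + 2 * a * s := by
  rw [div_le_iff₀ (by linarith)]
  have h1 : 0 ≤ t * (1 - 2 * s) := mul_nonneg ht (by linarith)
  have h2 : 0 ≤ a * s * (1 - 2 * s) := mul_nonneg (mul_nonneg ha hs0) (by linarith)
  nlinarith

/-- **Chord half of `StepQ`.** Torus of side `N = K M ξ`; activity `y'` at the new mass given. -/
theorem hyp_next {C2 W ξ M K y y' a A C : ℝ} (hC3 : 3 ≤ C2) (hξ : 0 < ξ) (hM : 1 ≤ M)
    (hK : 1 ≤ K) (hN : (N : ℝ) = K * (M * ξ)) {G G' : ZMod N × ZMod N → ℝ}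
    (hG' : ∀ w, 0 ≤ G' w) (hr : ∀ w, G' (-w.1, w.2) = G' w) (hs : ∀ w, G' (w.2, w.1) = G' w)
    (hpos : ∀ k, 0 ≤ Gh G' k) (htot : ∑ w, G' w ≤ (M * ξ) ^ 2)
    (hy' : (1 - y') * (M * ξ) ^ 2 ≤ ∑ w, G' w)
    (h : QU ξ G y a) (hE : E7 ξ (M * ξ) G G') (hM4 : M4 G' ≤ C * (M * ξ) ^ 6) (hC : 0 ≤ C)
    (hy : 0 ≤ y) (ha : 0 ≤ a) (haA : a ≤ A) (haC : 2 * a ≤ C2)
    (hMW : 8 * a * W ^ 2 ≤ M ^ 2) (hMy : M ^ 2 * y ≤ 1) (hy4 : y ≤ 1 / 4)
    (hKA : 4 * A * (2 * Real.pi / K) ^ 2 ≤ 1 / 4) :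
    Hyp C2 W (M * ξ) G' y'
      (a + (7 * C + 320 * A ^ 2 + 2 * A + 1) * (1 / K ^ 2 + K ^ 2 * M ^ 2 * y)) := by
  have hM0 : 0 < M := by linarith
  have hK0 : 0 < K := by linarith
  have hξ0 : 0 < M * ξ := by positivity
  have hA0 : 0 ≤ A := ha.trans haA
  have hπ := Real.pi_pos
  refine ⟨QK.qu ?_, H2.step hC3 hξ hM hpos h.qk hE hy hy4 ha haC hMW hMy⟩
  have h1 := (QU_of_moments hξ0 G' hG' hr hs hy').qk
  refine h1.mono hξ0.le le_rfl ?_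
  have hθ0 : 0 < 2 * Real.pi / K := by positivity
  have hpθ : 2 * Real.pi * ((1 : ℕ) : ℝ) / N * (M * ξ) = 2 * Real.pi / K := by
    rw [hN, Nat.cast_one, mul_one, div_mul_eq_mul_div, mul_comm K (M * ξ),
      mul_comm (2 * Real.pi) (M * ξ), mul_div_mul_left _ _ hξ0.ne']
  have h2 : 4 * a * (2 * Real.pi / K) ^ 2 / M ^ 2 ≤ 4 * a * (2 * Real.pi / K) ^ 2 := by
    apply div_le_self (by positivity)
    exact one_le_pow₀ hM
  have h3 : 4 * a * (2 * Real.pi / K) ^ 2 ≤ 1 / 4 := by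
    refine le_trans ?_ hKA
    exact mul_le_mul_of_nonneg_right (by linarith) (by positivity)
  have h20 : 0 ≤ 4 * a * (2 * Real.pi / K) ^ 2 / M ^ 2 := by positivity
  have hs1 : y + 4 * a * (2 * Real.pi / K) ^ 2 / M ^ 2 ≤ 1 / 2 := by linarith
  have h4 := slope_le (θ := 2 * Real.pi / K) (C := C) hξ hM hG' hpos
    (by rw [Gh_zero]; exact htot) h.qk hE hM4
    hy ha hθ0 1 hpθ.ge (by rw [hpθ]; linarith) hs1
  refine h4.trans ?_
  have h5 : 1 - y - 4 * a * (2 * Real.pi / K) ^ 2 / M ^ 2 =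
      1 - (y + 4 * a * (2 * Real.pi / K) ^ 2 / M ^ 2) := by ring
  rw [h5]
  have h6 := num_four (t := M ^ 2 * y / (2 * Real.pi / K) ^ 2) (a := a) (by positivity) ha
    (by linarith) hs1
  have e1 := num_one hC hK0
  have e2 := num_two (M := M) hK0 hy
  have e3 := num_three (s := y + 4 * a * (2 * Real.pi / K) ^ 2 / M ^ 2) hK hM hy ha haA
    (by linarith)
  have p1 : 0 ≤ K ^ 2 * M ^ 2 * y := by positivity
  have p2 : 0 ≤ 1 / K ^ 2 := by positivity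
  have e4 : 0 ≤ C * (K ^ 2 * M ^ 2 * y) := mul_nonneg hC p1
  have e5 : 0 ≤ A ^ 2 * (K ^ 2 * M ^ 2 * y) := mul_nonneg (by positivity) p1
  have e6 : 0 ≤ A * (1 / K ^ 2) := mul_nonneg hA0 p2
  generalize K ^ 2 * M ^ 2 * y = T1 at *
  generalize (1 / K ^ 2 : ℝ) = T2 at *
  generalize M ^ 2 * y / (2 * Real.pi / K) ^ 2 = T3 at *
  generalize (y + 4 * a * (2 * Real.pi / K) ^ 2 / M ^ 2) = T4 at *
  nlinarith

end

end Vale.Agent.P159.TM.H764
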