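import Vale.Agent.P159.TM.H764.Hyp

/-!
Inheritance of the one scale hypothesis: from mass `1/ξ²` to `1/(Mξ)²` through `E7`, and from the
window of one axis.
-/

set_option linter.unusedSectionVars false

namespace Vale.Agent.P159.TM.H764

open Finset

noncomputable section

variable {N : ℕ} [NeZero N]

/-- **Inheritance of `QK`** from the larger mass `1/ξ²` to the smaller mass `1/(Mξ)²`. -/
theorem QK.step {ξ M y a : ℝ} (hξ : 0 < ξ) (hM : 1 ≤ M) {G G' : ZMod N × ZMod N → ℝ}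
    (hpos : ∀ k, 0 ≤ Gh G' k) (h : QK ξ G y a) (hE : E7 ξ (M * ξ) G G') (hy : 0 ≤ y)
    (ha : 0 ≤ a) (hv : y + 1 / M ^ 2 < 1) :
    QK (M * ξ) G' (M ^ 2 * y / (1 - y - 1 / M ^ 2)) (a / (1 - y - 1 / M ^ 2)) := by
  intro k
  have hM0 : 0 < M := by linarith
  set c : ℝ := 1 - y - 1 / M ^ 2 with hc
  have hc0 : 0 < c := by rw [hc]; linarith
  have hc1 : c ≤ 1 := by
    have : 0 < 1 / M ^ 2 := by positivity
    rw [hc]; linarith
  set x' := Gh G' k with hx'
  have hx0 : 0 ≤ x' := hpos k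
  have hE0 := EE_nonneg k
  set E := EE k with hEE
  by_cases hcase : (1 - M ^ 2 * y / c) - a / c * (M * ξ) ^ 2 * E ≤ 0
  · have : (1 - M ^ 2 * y / c) * (M * ξ) ^ 2 - a / c * (M * ξ) ^ 4 * E =
        (M * ξ) ^ 2 * ((1 - M ^ 2 * y / c) - a / c * (M * ξ) ^ 2 * E) := by ring
    rw [this]
    have h2 : (M * ξ) ^ 2 * ((1 - M ^ 2 * y / c) - a / c * (M * ξ) ^ 2 * E) ≤ 0 :=
      mul_nonpos_of_nonneg_of_nonpos (by positivity) hcase
    linarith
  · push Not at hcase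
    have h1 : a / c * (M * ξ) ^ 2 * E < 1 := by
      have : 0 ≤ M ^ 2 * y / c := by positivity
      linarith
    have h2 : a * ξ ^ 2 * E < 1 / M ^ 2 := by
      have h3 : a / c * (M * ξ) ^ 2 * E = (a * ξ ^ 2 * E) * M ^ 2 / c := by ring
      rw [h3, div_lt_one hc0] at h1
      rw [lt_div_iff₀ (by positivity)]
      linarith
    set v : ℝ := y + a * ξ ^ 2 * E with hv'
    have hv0 : 0 ≤ v := by rw [hv']; positivity
    have hvc : v ≤ 1 - c := by rw [hv', hc]; linarith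
    have hv1 : v < 1 := by linarith
    have hlow : (1 - v) / (1 / ξ ^ 2) ≤ Gh G k := by
      have h4 := h k
      rw [← hEE] at h4
      have h5 : (1 - v) / (1 / ξ ^ 2) = (1 - y) * ξ ^ 2 - a * ξ ^ 4 * E := by
        rw [hv']; field_simp; ring
      rw [h5]; exact h4
    have he' : (0 : ℝ) < 1 / (M * ξ) ^ 2 := by positivity
    have hee : 1 / (M * ξ) ^ 2 ≤ 1 / ξ ^ 2 := by
      apply one_div_le_one_div_of_le (by positivity)
      have : ξ ≤ M * ξ := by nlinarith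
      gcongr
    have h6 := E7_low he' hee hv1 hv0 hlow (hE k) hx0
    rw [← hx'] at h6
    -- upper bound of P
    have h7 : 1 / ξ ^ 2 * v / (1 - v) ≤ 1 / ξ ^ 2 * v / c := by
      have : c ≤ 1 - v := by linarith
      gcongr
    set P := 1 / ξ ^ 2 * v / c with hP
    have hP0 : 0 ≤ P := by rw [hP]; positivity
    have h8 : 1 ≤ (1 / (M * ξ) ^ 2 + P) * x' := by
      refine h6.trans ?_
      gcongr
    -- x' ≥ (e' - P)/e'^2
    have h9 : (M * ξ) ^ 2 - (M * ξ) ^ 4 * P ≤ x' := by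
      set L := (M * ξ) ^ 2 with hL
      have hL0 : 0 < L := by rw [hL]; positivity
      have hL4 : (M * ξ) ^ 4 = L ^ 2 := by rw [hL]; ring
      rw [hL4]
      have h10 : L ≤ (1 + L * P) * x' := by
        have h11 : (1 + L * P) * x' = L * ((1 / L + P) * x') := by
          field_simp
        rw [h11]
        calc L = L * 1 := by ring
          _ ≤ _ := by gcongr
      have hden : 0 < 1 + L * P := by positivity
      have h12 : (1 + L * P) * (L - L ^ 2 * P) ≤ (1 + L * P) * x' := by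
        have : (1 + L * P) * (L - L ^ 2 * P) = L - L * (L * P) ^ 2 := by ring
        rw [this]
        have : 0 ≤ L * (L * P) ^ 2 := by positivity
        linarith
      exact le_of_mul_le_mul_left h12 hden
    have h13 : (1 - M ^ 2 * y / c) * (M * ξ) ^ 2 - a / c * (M * ξ) ^ 4 * E =
        (M * ξ) ^ 2 - (M * ξ) ^ 4 * P := by
      rw [hP, hv']
      field_simp
      ring
    rw [h13]
    exact h9

/-- `(H2)` at the smaller mass. -/
theorem H2.step {C2 W ξ M y a : ℝ} (hC3 : 3 ≤ C2) (hξ : 0 < ξ) (hM : 1 ≤ M)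
    {G G' : ZMod N × ZMod N → ℝ} (hpos : ∀ k, 0 ≤ Gh G' k) (h : QK ξ G y a)
    (hE : E7 ξ (M * ξ) G G') (hy : 0 ≤ y) (hy4 : y ≤ 1 / 4) (ha : 0 ≤ a) (haC : 2 * a ≤ C2)
    (hMW : 8 * a * W ^ 2 ≤ M ^ 2) (hMy : M ^ 2 * y ≤ 1) : H2 C2 W (M * ξ) G' := by
  intro k hk1 hk2
  have hM0 : 0 < M := by linarith
  set x' := Gh G' k with hx'
  have hx0 : 0 ≤ x' := hpos k
  have hE0 := EE_nonneg k
  have hE1 := EE_le k
  set E := EE k with hEE
  have h1 : pw k.1 ^ 2 ≤ (W / (M * ξ)) ^ 2 := by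
    rw [← sq_abs (pw k.1)]; gcongr
  have h2 : pw k.2 ^ 2 ≤ (W / (M * ξ)) ^ 2 := by
    rw [← sq_abs (pw k.2)]; gcongr
  have h3 : a * ξ ^ 2 * E ≤ 1 / 4 := by
    have h4 : E ≤ 2 * (W / (M * ξ)) ^ 2 := by linarith
    calc a * ξ ^ 2 * E ≤ a * ξ ^ 2 * (2 * (W / (M * ξ)) ^ 2) := by gcongr
      _ = (8 * a * W ^ 2) / (4 * M ^ 2) := by field_simp; ring
      _ ≤ M ^ 2 / (4 * M ^ 2) := by gcongr
      _ = 1 / 4 := by field_simp
  set v : ℝ := y + a * ξ ^ 2 * E with hv'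
  have hv0 : 0 ≤ v := by rw [hv']; positivity
  have hvh : v ≤ 1 / 2 := by rw [hv']; linarith
  have hlow : (1 - v) / (1 / ξ ^ 2) ≤ Gh G k := by
    have h4 := h k
    rw [← hEE] at h4
    have h5 : (1 - v) / (1 / ξ ^ 2) = (1 - y) * ξ ^ 2 - a * ξ ^ 4 * E := by
      rw [hv']; field_simp; ring
    rw [h5]; exact h4
  have he' : (0 : ℝ) < 1 / (M * ξ) ^ 2 := by positivity
  have hee : 1 / (M * ξ) ^ 2 ≤ 1 / ξ ^ 2 := by
    apply one_div_le_one_div_of_le (by positivity)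
    have : ξ ≤ M * ξ := by nlinarith
    gcongr
  have h6 := E7_low he' hee (by linarith) hv0 hlow (hE k) hx0
  rw [← hx'] at h6
  refine h6.trans ?_
  refine mul_le_mul_of_nonneg_right ?_ hx0
  have h7 : 1 / ξ ^ 2 * v / (1 - v) ≤ 1 / ξ ^ 2 * v / (1 / 2) := by
    have : 1 / 2 ≤ 1 - v := by linarith
    gcongr
  have h8 : 1 / ξ ^ 2 * v / (1 / 2) = 2 * (M ^ 2 * y) * (1 / (M * ξ) ^ 2) + 2 * a * E := by
    rw [hv']; field_simp
  have h9 : 2 * (M ^ 2 * y) * (1 / (M * ξ) ^ 2) ≤ 2 * 1 * (1 / (M * ξ) ^ 2) := by gcongr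
  have h10 : 2 * a * E ≤ C2 * (pw k.1 ^ 2 + pw k.2 ^ 2) := by gcongr
  have h11 : 3 * (1 / (M * ξ) ^ 2) ≤ C2 * (1 / (M * ξ) ^ 2) := by gcongr
  linarith

/-- **Inheritance of the whole hypothesis.** -/
theorem Hyp.step {C2 W ξ M y a : ℝ} (hC3 : 3 ≤ C2) (hξ : 0 < ξ) (hM : 2 ≤ M)
    {G G' : ZMod N × ZMod N → ℝ} (hpos : ∀ k, 0 ≤ Gh G' k) (h : QU ξ G y a)
    (hE : E7 ξ (M * ξ) G G') (hy : 0 ≤ y) (hy4 : y ≤ 1 / 4) (ha : 0 ≤ a) (haC : 2 * a ≤ C2)
    (hMW : 8 * a * W ^ 2 ≤ M ^ 2) (hMy : M ^ 2 * y ≤ 1) :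
    Hyp C2 W (M * ξ) G' (M ^ 2 * y / (1 - y - 1 / M ^ 2)) (a / (1 - y - 1 / M ^ 2)) := by
  refine ⟨(QK.step hξ (by linarith) hpos h.qk hE hy ha ?_).qu,
    H2.step hC3 hξ (by linarith) hpos h.qk hE hy hy4 ha haC hMW hMy⟩
  have h1 : 1 / M ^ 2 ≤ 1 / 2 ^ 2 := by
    apply one_div_le_one_div_of_le (by norm_num)
    gcongr
  linarith

/-! ### small wave numbers -/

/-- `(2/π²) x² ≤ 1 - cos x` for `|x| ≤ π`. -/
lemma one_sub_cos_low {x : ℝ} (hx : |x| ≤ Real.pi) : 2 / Real.pi ^ 2 * x ^ 2 ≤ 1 - Real.cos x := by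
  have key : ∀ t : ℝ, 0 ≤ t → t ≤ Real.pi → 2 / Real.pi ^ 2 * t ^ 2 ≤ 1 - Real.cos t := by
    intro t ht htp
    have h1 : 2 / Real.pi * (t / 2) ≤ Real.sin (t / 2) :=
      Real.mul_le_sin (by linarith) (by linarith)
    have h2 : 1 - Real.cos t = 2 * Real.sin (t / 2) ^ 2 := by
      rw [Real.sin_sq_eq_half_sub]
      have : 2 * (t / 2) = t := by ring
      rw [this]; ring
    have h3 : 0 ≤ 2 / Real.pi * (t / 2) := by positivity
    have h4 := pow_le_pow_left₀ h3 h1 2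
    rw [h2]
    calc 2 / Real.pi ^ 2 * t ^ 2 = 2 * (2 / Real.pi * (t / 2)) ^ 2 := by
          field_simp
      _ ≤ _ := by linarith
  rcases le_total 0 x with h | h
  · rw [abs_of_nonneg h] at hx
    exact key x h hx
  · rw [abs_of_nonpos h] at hx
    have := key (-x) (by linarith) hx
    rwa [Real.cos_neg, neg_sq] at this

/-- Dirichlet kernel: `2 sin(θ/2) ∑_{j<n} cos((m+j)θ) = sin((m+n-1/2)θ) - sin((m-1/2)θ)`. -/
lemma dirichlet_sum (m n : ℕ) (θ : ℝ) :
    2 * Real.sin (θ / 2) * ∑ j ∈ range n, Real.cos ((m + j : ℕ) * θ) =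
      Real.sin (((m + n : ℕ) - 1 / 2 : ℝ) * θ) - Real.sin (((m : ℕ) - 1 / 2 : ℝ) * θ) := by
  induction n with
  | zero => simp
  | succ n ih =>
    rw [Finset.sum_range_succ, mul_add, ih]
    have h1 : 2 * Real.sin (θ / 2) * Real.cos ((m + n : ℕ) * θ) =
        Real.sin (((m + n : ℕ) + 1 / 2 : ℝ) * θ) - Real.sin (((m + n : ℕ) - 1 / 2 : ℝ) * θ) := by
      have e1 : (((m + n : ℕ) + 1 / 2 : ℝ) * θ) = ((m + n : ℕ) : ℝ) * θ + θ / 2 := by ring
      have e2 : (((m + n : ℕ) - 1 / 2 : ℝ) * θ) = ((m + n : ℕ) : ℝ) * θ - θ / 2 := by ring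
      rw [e1, e2, Real.sin_add, Real.sin_sub]
      ring
    rw [h1]
    have e3 : (((m + (n + 1) : ℕ) : ℝ) - 1 / 2) = ((m + n : ℕ) : ℝ) + 1 / 2 := by
      push_cast; ring
    rw [e3]
    ring

/-- small multiples are dominated by the average over `[J, 5J)`. -/
lemma cos_avg {J i : ℕ} (hJ : 1 ≤ J) (hi : i ≤ J) {θ : ℝ} (hθ : |θ| ≤ Real.pi) :
    1 - Real.cos (i * θ) ≤
      10 / (4 * J) * ∑ j ∈ range (4 * J), (1 - Real.cos ((J + j : ℕ) * θ)) := by
  have hJ0 : (0 : ℝ) < J := by exact_mod_cast hJ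
  have hπ := Real.pi_pos
  by_cases hc : Real.pi / (2 * J) ≤ |θ|
  · -- oscillating case
    have hθ0 : 0 < |θ| := lt_of_lt_of_le (by positivity) hc
    have h1 : ∑ j ∈ range (4 * J), Real.cos ((J + j : ℕ) * θ) ≤ 2 * J := by
      have h2 := dirichlet_sum J (4 * J) θ
      have h3 : |θ| / Real.pi ≤ |Real.sin (θ / 2)| := by
        have h4 : 2 / Real.pi * (|θ| / 2) ≤ Real.sin (|θ| / 2) :=
          Real.mul_le_sin (by positivity) (by linarith)
        have h5 : |Real.sin (θ / 2)| = |Real.sin (|θ| / 2)| := by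
          rcases le_total 0 θ with h | h
          · rw [abs_of_nonneg h]
          · rw [abs_of_nonpos h]
            have : -θ / 2 = -(θ / 2) := by ring
            rw [this, Real.sin_neg, abs_neg]
        rw [h5]
        refine le_trans (le_trans (le_of_eq ?_) h4) (le_abs_self _)
        field_simp
      have h6 : |2 * Real.sin (θ / 2) * ∑ j ∈ range (4 * J), Real.cos ((J + j : ℕ) * θ)| ≤ 2 := by
        rw [h2]
        refine (abs_sub _ _).trans ?_
        have := Real.abs_sin_le_one (((J + 4 * J : ℕ) - 1 / 2 : ℝ) * θ)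
        have := Real.abs_sin_le_one (((J : ℕ) - 1 / 2 : ℝ) * θ)
        linarith
      rw [abs_mul, abs_mul, abs_two] at h6
      set S := ∑ j ∈ range (4 * J), Real.cos ((J + j : ℕ) * θ) with hS
      have h7 : |θ| / Real.pi * |S| ≤ 1 := by
        have : |θ| / Real.pi * |S| ≤ |Real.sin (θ / 2)| * |S| := by gcongr
        linarith
      have h8 : 1 / (2 * (J : ℝ)) ≤ |θ| / Real.pi := by
        rw [le_div_iff₀ hπ]
        calc 1 / (2 * (J : ℝ)) * Real.pi = Real.pi / (2 * J) := by ring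
          _ ≤ _ := hc
      have h9 : 1 / (2 * (J : ℝ)) * |S| ≤ 1 := by
        refine le_trans ?_ h7
        gcongr
      have h10 : |S| ≤ 2 * J := by
        rw [one_div, inv_mul_le_iff₀ (by positivity)] at h9
        linarith
      exact (le_abs_self _).trans h10
    rw [Finset.sum_sub_distrib, Finset.sum_const, card_range, nsmul_eq_mul, mul_one]
    push_cast
    push_cast at h1
    have h11 : (2 : ℝ) ≤ 10 / (4 * J) * (4 * J -
        ∑ j ∈ range (4 * J), Real.cos (((J : ℝ) + j) * θ)) := by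
      have h12 : 2 * (J : ℝ) ≤ 4 * J - ∑ j ∈ range (4 * J), Real.cos (((J : ℝ) + j) * θ) := by
        linarith
      calc (2 : ℝ) ≤ 10 / (4 * J) * (2 * J) := by
            have : 10 / (4 * (J : ℝ)) * (2 * J) = 5 := by field_simp; norm_num
            rw [this]; norm_num
        _ ≤ _ := by gcongr
    have := Real.neg_one_le_cos ((i : ℝ) * θ)
    linarith
  · push Not at hc
    have h1 : 1 - Real.cos (i * θ) ≤ (J : ℝ) ^ 2 * θ ^ 2 / 2 := by
      have h2 := Real.one_sub_sq_div_two_le_cos (x := (i : ℝ) * θ)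
      have h3 : ((i : ℝ) * θ) ^ 2 ≤ (J : ℝ) ^ 2 * θ ^ 2 := by
        rw [mul_pow]
        have : (i : ℝ) ≤ J := by exact_mod_cast hi
        gcongr
      linarith
    have h4 : ∑ j ∈ range J, (2 / Real.pi ^ 2 * ((J : ℝ) ^ 2 * θ ^ 2)) ≤
        ∑ j ∈ range (4 * J), (1 - Real.cos ((J + j : ℕ) * θ)) := by
      have h5 : ∑ j ∈ range J, (1 - Real.cos ((J + j : ℕ) * θ)) ≤
          ∑ j ∈ range (4 * J), (1 - Real.cos ((J + j : ℕ) * θ)) := by
        refine Finset.sum_le_sum_of_subset_of_nonneg ?_ ?_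
        · intro j hj
          rw [Finset.mem_range] at hj ⊢
          omega
        · intro j _ _
          linarith [Real.cos_le_one (((J + j : ℕ) : ℝ) * θ)]
      refine le_trans (Finset.sum_le_sum fun j hj => ?_) h5
      rw [Finset.mem_range] at hj
      have h6 : |((J + j : ℕ) : ℝ) * θ| ≤ Real.pi := by
        rw [abs_mul, Nat.abs_cast]
        have h7 : ((J + j : ℕ) : ℝ) ≤ 2 * J := by
          have : J + j ≤ 2 * J := by omega
          exact_mod_cast this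
        calc ((J + j : ℕ) : ℝ) * |θ| ≤ 2 * J * (Real.pi / (2 * J)) := by
              gcongr
          _ = Real.pi := by field_simp
      have h8 := one_sub_cos_low h6
      refine le_trans ?_ h8
      rw [mul_pow]
      have h9 : (J : ℝ) ≤ ((J + j : ℕ) : ℝ) := by push_cast; linarith [Nat.cast_nonneg (α := ℝ) j]
      gcongr
    rw [Finset.sum_const, card_range, nsmul_eq_mul] at h4
    have h10 : (J : ℝ) ^ 2 * θ ^ 2 / 2 ≤
        10 / (4 * J) * (J * (2 / Real.pi ^ 2 * ((J : ℝ) ^ 2 * θ ^ 2))) := by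
      have e : 10 / (4 * (J : ℝ)) * (J * (2 / Real.pi ^ 2 * ((J : ℝ) ^ 2 * θ ^ 2))) =
          (J : ℝ) ^ 2 * θ ^ 2 * (5 / Real.pi ^ 2) := by
        field_simp
        ring
      rw [e]
      have h11 : (1 : ℝ) / 2 ≤ 5 / Real.pi ^ 2 := by
        rw [div_le_div_iff₀ (by norm_num) (by positivity)]
        have : Real.pi < 3.15 := Real.pi_lt_d2
        nlinarith
      calc (J : ℝ) ^ 2 * θ ^ 2 / 2 = (J : ℝ) ^ 2 * θ ^ 2 * (1 / 2) := by ring
        _ ≤ _ := by gcongr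
    calc 1 - Real.cos (i * θ) ≤ (J : ℝ) ^ 2 * θ ^ 2 / 2 := h1
      _ ≤ _ := h10
      _ ≤ _ := by gcongr

/-- small modes on the axis are dominated by the window `[J, 5J)`. -/
theorem DD_small (G : ZMod N × ZMod N → ℝ) (hG : ∀ w, 0 ≤ G w) {J i : ℕ} (hJ : 1 ≤ J)
    (hi : i ≤ J) {B : ℝ} (hB : ∀ j : ℕ, J ≤ j → j < 5 * J → DD G (j : ZMod N) ≤ B) :
    DD G (i : ZMod N) ≤ 10 * B := by
  have hJ0 : (0 : ℝ) < J := by exact_mod_cast hJ
  have hN : (0 : ℝ) < N := by exact_mod_cast NeZero.pos N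
  have hc : ∀ (m : ℕ) (w : ZMod N), cN ((m : ZMod N) * w) =
      Real.cos ((m : ℝ) * (2 * Real.pi * w.valMinAbs / N)) := by
    intro m w
    have := cN_mul (N := N) (m : ℤ) w
    rw [Int.cast_natCast] at this
    rw [this]
    congr 1
    push_cast
    ring
  have h1 : DD G (i : ZMod N) ≤
      10 / (4 * J) * ∑ j ∈ range (4 * J), DD G ((J + j : ℕ) : ZMod N) := by
    simp_rw [DD_eq]
    rw [Finset.sum_comm, Finset.mul_sum]
    refine Finset.sum_le_sum fun w _ => ?_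
    rw [← Finset.mul_sum]
    have h2 : |2 * Real.pi * (w.1.valMinAbs : ℝ) / N| ≤ Real.pi := by
      rw [abs_div, abs_mul, Nat.abs_cast, div_le_iff₀ hN]
      have h3 : |(w.1.valMinAbs : ℝ)| ≤ N / 2 := by
        have h4 := ZMod.natAbs_valMinAbs_le w.1
        have h5 : |(w.1.valMinAbs : ℝ)| = (w.1.valMinAbs.natAbs : ℝ) := by
          rw [Nat.cast_natAbs]; push_cast; rfl
        rw [h5]
        have h6 : (w.1.valMinAbs.natAbs : ℝ) ≤ ((N / 2 : ℕ) : ℝ) := by exact_mod_cast h4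
        exact h6.trans Nat.cast_div_le
      rw [abs_of_pos (by positivity : (0 : ℝ) < 2 * Real.pi)]
      nlinarith [Real.pi_pos]
    have h7 := cos_avg hJ hi h2
    rw [hc]
    simp_rw [hc]
    calc G w * (1 - Real.cos ((i : ℝ) * (2 * Real.pi * (w.1.valMinAbs : ℝ) / N)))
        ≤ G w * (10 / (4 * J) * ∑ j ∈ range (4 * J),
          (1 - Real.cos ((J + j : ℕ) * (2 * Real.pi * (w.1.valMinAbs : ℝ) / N)))) :=
          mul_le_mul_of_nonneg_left h7 (hG w)
      _ = _ := by ring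
  refine h1.trans ?_
  have h2 : ∑ j ∈ range (4 * J), DD G ((J + j : ℕ) : ZMod N) ≤ ∑ _j ∈ range (4 * J), B := by
    refine Finset.sum_le_sum fun j hj => ?_
    rw [Finset.mem_range] at hj
    exact hB (J + j) (by omega) (by omega)
  rw [Finset.sum_const, card_range, nsmul_eq_mul] at h2
  calc 10 / (4 * (J : ℝ)) * ∑ j ∈ range (4 * J), DD G ((J + j : ℕ) : ZMod N)
      ≤ 10 / (4 * (J : ℝ)) * (((4 * J : ℕ) : ℝ) * B) := by gcongr
    _ = 10 * B := by push_cast; field_simp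

lemma DD_neg (G : ZMod N × ZMod N → ℝ) (j : ZMod N) : DD G (-j) = DD G j := by
  rw [DD_eq, DD_eq]
  refine Finset.sum_congr rfl fun w _ => ?_
  rw [neg_mul, cN_neg]

lemma DD_natAbs (G : ZMod N × ZMod N → ℝ) (j : ZMod N) :
    DD G j = DD G ((j.valMinAbs.natAbs : ℕ) : ZMod N) := by
  have h0 : ((j.valMinAbs : ℤ) : ZMod N) = j := ZMod.coe_valMinAbs j
  rcases Int.natAbs_eq j.valMinAbs with h | h
  · have h1 : ((j.valMinAbs.natAbs : ℕ) : ZMod N) = j := by
      nth_rewrite 2 [← h0]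
      rw [h]
      simp
    rw [h1]
  · have h1 : ((j.valMinAbs.natAbs : ℕ) : ZMod N) = -j := by
      nth_rewrite 2 [← h0]
      rw [h]
      simp
    rw [h1, DD_neg]

/-- **First scale**: `QK` from the window `[2πJ/N, K₀/ξ]` of one axis. -/
theorem QK.of_window {ξ K0 a a' : ℝ} (hξ : 0 < ξ) {G : ZMod N × ZMod N → ℝ}
    (hG : ∀ w, 0 ≤ G w) (hr : ∀ w, G (-w.1, w.2) = G w) (hs : ∀ w, G (w.2, w.1) = G w)
    (hpos : ∀ k, 0 ≤ Gh G k) (htot : Gh G 0 ≤ ξ ^ 2) (ha : 0 < a)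
    {J : ℕ} (hJ : 1 ≤ J) (hJ5 : 5 * (2 * Real.pi * J / N) ≤ K0 / ξ)
    (hK0 : 0 < K0) (haa : a ≤ a' * (1 - K0 ^ 2 / (12 * ξ ^ 2)))
    (haK : Real.pi ^ 2 ≤ 4 * a' * K0 ^ 2)
    (hwin : ∀ j : ℕ, J ≤ j → 2 * Real.pi * j / N ≤ K0 / ξ →
      1 ≤ (1 / ξ ^ 2 + a * (2 * Real.pi * j / N) ^ 2) * Gh G ((j : ZMod N), 0)) :
    QK ξ G (501 * a * (ξ * (2 * Real.pi * J / N)) ^ 2) a' := by
  have hN : (0 : ℝ) < N := by exact_mod_cast NeZero.pos N
  have hJ0 : (0 : ℝ) < J := by exact_mod_cast hJ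
  have hπ := Real.pi_pos
  -- lower bound in the window
  have hlow : ∀ j : ℕ, J ≤ j → 2 * Real.pi * j / N ≤ K0 / ξ →
      ξ ^ 2 - a * ξ ^ 4 * (2 * Real.pi * j / N) ^ 2 ≤ Gh G ((j : ZMod N), 0) := by
    intro j hj1 hj2
    have h1 := hwin j hj1 hj2
    set x := Gh G ((j : ZMod N), 0) with hx
    set p := 2 * Real.pi * (j : ℝ) / N with hp
    have hx0 : 0 ≤ x := hpos _
    have h2 : ξ ^ 2 ≤ (1 + a * ξ ^ 2 * p ^ 2) * x := by
      have h3 : ξ ^ 2 * 1 ≤ ξ ^ 2 * ((1 / ξ ^ 2 + a * p ^ 2) * x) := by gcongr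
      have h4 : ξ ^ 2 * ((1 / ξ ^ 2 + a * p ^ 2) * x) = (1 + a * ξ ^ 2 * p ^ 2) * x := by
        field_simp
      linarith
    have hden : 0 < 1 + a * ξ ^ 2 * p ^ 2 := by positivity
    have h5 : (1 + a * ξ ^ 2 * p ^ 2) * (ξ ^ 2 - a * ξ ^ 4 * p ^ 2) ≤
        (1 + a * ξ ^ 2 * p ^ 2) * x := by
      have h6 : (1 + a * ξ ^ 2 * p ^ 2) * (ξ ^ 2 - a * ξ ^ 4 * p ^ 2) =
          ξ ^ 2 - ξ ^ 2 * (a * ξ ^ 2 * p ^ 2) ^ 2 := by ring
      rw [h6]
      have : 0 ≤ ξ ^ 2 * (a * ξ ^ 2 * p ^ 2) ^ 2 := by positivity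
      linarith
    exact le_of_mul_le_mul_left h5 hden
  set q : ℝ := 2 * Real.pi * J / N with hq
  have hq0 : 0 < q := by rw [hq]; positivity
  have hqK : q ≤ K0 / ξ := by linarith
  have hD : ∀ j : ℕ, J ≤ j → 2 * Real.pi * j / N ≤ K0 / ξ →
      DD G (j : ZMod N) ≤ a * ξ ^ 4 * (2 * Real.pi * j / N) ^ 2 := by
    intro j h1 h2
    unfold DD
    linarith [hlow j h1 h2]
  have ha' : 0 < a' := by
    by_contra hneg
    push Not at hneg
    have : 4 * a' * K0 ^ 2 ≤ 0 := by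
      have := sq_nonneg K0
      nlinarith
    have : 0 < Real.pi ^ 2 := by positivity
    linarith
  have key : QK ξ G (a * (ξ * q) ^ 2 + 2 * (250 * a * (ξ * q) ^ 2)) a' := by
    refine QK.of_axis hG hr hs ?_ ?_
    · have h1 := hlow J le_rfl hqK
      have h2 := Gh_le G hG ((J : ZMod N), 0)
      have h3 : (1 - a * (ξ * q) ^ 2) * ξ ^ 2 = ξ ^ 2 - a * ξ ^ 4 * q ^ 2 := by ring
      rw [h3]
      linarith
    · intro j
      rw [DD_natAbs]
      set i : ℕ := j.valMinAbs.natAbs with hi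
      have hcos : 0 ≤ 1 - cN j := by linarith [cN_le_one j]
      have hcj : cN j = Real.cos (2 * Real.pi * i / N) := by
        have hi' : (i : ℝ) = |(j.valMinAbs : ℝ)| := by
          rw [hi, Nat.cast_natAbs]; push_cast; rfl
        rw [cN_pw, hi']
        unfold pw
        have h1 : 2 * Real.pi * |(j.valMinAbs : ℝ)| / N = |2 * Real.pi * (j.valMinAbs : ℝ) / N| := by
          rw [abs_div, abs_mul, Nat.abs_cast, abs_of_pos (by positivity : (0 : ℝ) < 2 * Real.pi)]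
        rw [h1, Real.cos_abs]
      set p : ℝ := 2 * Real.pi * (i : ℝ) / N with hp
      have hp0 : 0 ≤ p := by rw [hp]; positivity
      rcases le_or_gt J i with hJi | hJi
      · rcases le_or_gt p (K0 / ξ) with hpK | hpK
        · -- window
          have h1 := hD i hJi hpK
          have h2 := one_sub_cos_ge p
          have h3 : p ^ 2 ≤ K0 ^ 2 / ξ ^ 2 := by
            rw [← div_pow]; gcongr
          have h4 : a * p ^ 2 ≤ a' * (2 * (1 - cN j)) := by
            rw [hcj]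
            calc a * p ^ 2 ≤ a' * (1 - K0 ^ 2 / (12 * ξ ^ 2)) * p ^ 2 := by gcongr
              _ ≤ a' * (1 - p ^ 2 / 12) * p ^ 2 := by
                  have : p ^ 2 / 12 ≤ K0 ^ 2 / (12 * ξ ^ 2) := by
                    have h5 : K0 ^ 2 / (12 * ξ ^ 2) = (K0 ^ 2 / ξ ^ 2) / 12 := by
                      field_simp
                    rw [h5]; linarith
                  gcongr
              _ = a' * (2 * (p ^ 2 / 2 - p ^ 4 / 24)) := by ring
              _ ≤ _ := by gcongr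
          have h5 : a * ξ ^ 4 * p ^ 2 ≤ a' * ξ ^ 4 * (2 * (1 - cN j)) := by
            calc a * ξ ^ 4 * p ^ 2 = ξ ^ 4 * (a * p ^ 2) := by ring
              _ ≤ ξ ^ 4 * (a' * (2 * (1 - cN j))) := by gcongr
              _ = _ := by ring
          have h6 : 0 ≤ 250 * a * (ξ * q) ^ 2 * ξ ^ 2 := by positivity
          linarith
        · -- large modes
          have h1 : DD G ((i : ℕ) : ZMod N) ≤ ξ ^ 2 := by
            unfold DD
            linarith [hpos (((i : ℕ) : ZMod N), 0)]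
          have hpπ : |p| ≤ Real.pi := by
            rw [abs_of_nonneg hp0, hp, div_le_iff₀ hN]
            have h4 := ZMod.natAbs_valMinAbs_le j
            have h6 : (i : ℝ) ≤ ((N / 2 : ℕ) : ℝ) := by exact_mod_cast h4
            have h7 : (i : ℝ) ≤ N / 2 := h6.trans Nat.cast_div_le
            nlinarith
          have h2 := one_sub_cos_low hpπ
          have h3 : K0 ^ 2 / ξ ^ 2 ≤ p ^ 2 := by
            rw [← div_pow]
            have : 0 ≤ K0 / ξ := by positivity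
            gcongr
          have h4 : ξ ^ 2 ≤ a' * ξ ^ 4 * (2 * (1 - cN j)) := by
            rw [hcj]
            calc ξ ^ 2 = ξ ^ 2 * 1 := by ring
              _ ≤ ξ ^ 2 * (4 * a' * K0 ^ 2 / Real.pi ^ 2) := by
                  have : 1 ≤ 4 * a' * K0 ^ 2 / Real.pi ^ 2 := by
                    rw [le_div_iff₀ (by positivity)]; linarith
                  gcongr
              _ = a' * ξ ^ 4 * (2 * (2 / Real.pi ^ 2 * (K0 ^ 2 / ξ ^ 2))) := by
                  field_simp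
                  ring
              _ ≤ a' * ξ ^ 4 * (2 * (2 / Real.pi ^ 2 * p ^ 2)) := by gcongr
              _ ≤ _ := by gcongr
          have h6 : 0 ≤ 250 * a * (ξ * q) ^ 2 * ξ ^ 2 := by positivity
          linarith
      · -- small modes
        have h1 : DD G ((i : ℕ) : ZMod N) ≤ 10 * (a * ξ ^ 4 * (5 * q) ^ 2) := by
          refine DD_small G hG hJ hJi.le ?_
          intro m hm1 hm2
          have h2 : 2 * Real.pi * (m : ℝ) / N ≤ 5 * q := by
            rw [hq]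
            have : (m : ℝ) ≤ 5 * J := by exact_mod_cast hm2.le
            calc 2 * Real.pi * (m : ℝ) / N ≤ 2 * Real.pi * (5 * J) / N := by gcongr
              _ = _ := by ring
          refine (hD m hm1 (h2.trans hJ5)).trans ?_
          have h3 : 0 ≤ 2 * Real.pi * (m : ℝ) / N := by positivity
          gcongr
        have h2 : 10 * (a * ξ ^ 4 * (5 * q) ^ 2) = 250 * a * (ξ * q) ^ 2 * ξ ^ 2 := by ring
        rw [h2] at h1
        have h3 : 0 ≤ a' * ξ ^ 4 * (2 * (1 - cN j)) := by positivity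
        linarith
  have e : a * (ξ * q) ^ 2 + 2 * (250 * a * (ξ * q) ^ 2) = 501 * a * (ξ * q) ^ 2 := by ring
  rw [e] at key
  exact key

end

end Vale.Agent.P159.TM.H764
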