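import Vale.Agent.P159.TM.H764.Torus

/-!
Row LAMB: `|Λ|/ε - ∑_{Λ²} G ≤ C ξ⁴ (y R² + R)` for the box `Λ` of radius `r` on `Z_N x Z_N`,
from the tail bound (A2); `1/ε = ξ²`, `∑ G = (1-y) ξ²`.
-/

set_option linter.unusedSectionVars false

namespace Vale.Agent.P159.TM.H764

open Finset

noncomputable section

variable {N : ℕ} [NeZero N]

/-- sup norm on the torus. -/
def nrm (x : ZMod N × ZMod N) : ℕ := max x.1.valMinAbs.natAbs x.2.valMinAbs.natAbs

/-- box of radius `r` around `c`. -/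
def bx (c : ZMod N × ZMod N) (r : ℕ) : Finset (ZMod N × ZMod N) :=
  univ.filter fun x => nrm (x - c) ≤ r

lemma mem_bx {c x : ZMod N × ZMod N} {r : ℕ} : x ∈ bx c r ↔
    (x.1 - c.1).valMinAbs.natAbs ≤ r ∧ (x.2 - c.2).valMinAbs.natAbs ≤ r := by
  simp [bx, nrm]

/-- number of points which leave `Λ` under the shift `w`. -/
def lv (Λ : Finset (ZMod N × ZMod N)) (w : ZMod N × ZMod N) : ℕ :=
  (Λ.filter fun x => x + w ∉ Λ).card

lemma lv_zero (Λ : Finset (ZMod N × ZMod N)) : lv Λ 0 = 0 := by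
  unfold lv
  rw [Finset.card_eq_zero, Finset.filter_eq_empty_iff]
  intro x hx
  simpa using hx

lemma lv_le_card (Λ : Finset (ZMod N × ZMod N)) (w : ZMod N × ZMod N) : lv Λ w ≤ Λ.card :=
  Finset.card_filter_le _ _

lemma lv_neg (Λ : Finset (ZMod N × ZMod N)) (w : ZMod N × ZMod N) : lv Λ (-w) = lv Λ w := by
  have h1 : ∀ w, lv Λ w + (Λ.filter fun x => x + w ∈ Λ).card = Λ.card := by
    intro w
    unfold lv
    rw [add_comm]
    exact Finset.card_filter_add_card_filter_not (s := Λ) (p := fun x => x + w ∈ Λ)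
  have h2 : (Λ.filter fun x => x + -w ∈ Λ).card = (Λ.filter fun x => x + w ∈ Λ).card := by
    refine Finset.card_bij (fun x _ => x + -w) ?_ ?_ ?_
    · intro x hx
      rw [Finset.mem_filter] at hx ⊢
      refine ⟨hx.2, ?_⟩
      rw [neg_add_cancel_right]
      exact hx.1
    · intro x _ y _ h
      exact add_right_cancel h
    · intro y hy
      rw [Finset.mem_filter] at hy
      refine ⟨y + w, ?_, ?_⟩
      · rw [Finset.mem_filter]
        refine ⟨hy.2, ?_⟩
        rw [add_neg_cancel_right]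
        exact hy.1
      · exact add_neg_cancel_right y w
  have := h1 w
  have := h1 (-w)
  omega

lemma lv_add (Λ : Finset (ZMod N × ZMod N)) (v w : ZMod N × ZMod N) :
    lv Λ (v + w) ≤ lv Λ v + lv Λ w := by
  have h1 : (Λ.filter fun x => x + (v + w) ∉ Λ) ⊆
      (Λ.filter fun x => x + v ∉ Λ) ∪
        ((Λ.filter fun x => x + w ∉ Λ).image fun x => x + -v) := by
    intro x hx
    rw [Finset.mem_filter] at hx
    rw [Finset.mem_union]
    by_cases h : x + v ∈ Λ
    · right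
      rw [Finset.mem_image]
      refine ⟨x + v, ?_, ?_⟩
      · rw [Finset.mem_filter]
        refine ⟨h, ?_⟩
        rw [add_assoc]
        exact hx.2
      · rw [add_neg_cancel_right]
    · left
      rw [Finset.mem_filter]
      exact ⟨hx.1, h⟩
  calc lv Λ (v + w) ≤ _ := Finset.card_le_card h1
    _ ≤ _ := Finset.card_union_le _ _
    _ ≤ _ := Nat.add_le_add_left Finset.card_image_le _

lemma lv_nsmul (Λ : Finset (ZMod N × ZMod N)) (e : ZMod N × ZMod N) (m : ℕ) :
    lv Λ (m • e) ≤ m * lv Λ e := by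
  induction m with
  | zero => simp [lv_zero]
  | succ m ih =>
    rw [succ_nsmul]
    have := lv_add Λ (m • e) e
    rw [Nat.succ_mul]
    omega

lemma lv_zsmul (Λ : Finset (ZMod N × ZMod N)) (e : ZMod N × ZMod N) (m : ℤ) :
    lv Λ (m • e) ≤ m.natAbs * lv Λ e := by
  obtain ⟨n, rfl | rfl⟩ := m.eq_nat_or_neg
  · simpa using lv_nsmul Λ e n
  · rw [neg_smul, lv_neg]
    simpa using lv_nsmul Λ e n

lemma card_line (r : ℕ) (c : ZMod N) :
    (univ.filter fun x : ZMod N => (x - c).valMinAbs.natAbs ≤ r).card ≤ 2 * r + 1 := by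
  have h : (univ.filter fun x : ZMod N => (x - c).valMinAbs.natAbs ≤ r).card ≤
      (Finset.Icc (-(r : ℤ)) r).card := by
    refine Finset.card_le_card_of_injOn (fun x => (x - c).valMinAbs) ?_ ?_
    · intro x hx
      simp only [coe_filter, mem_univ, true_and, Set.mem_ofPred_eq] at hx
      simp only [coe_Icc, Set.mem_Icc]
      omega
    · intro x _ y _ h
      have h' := ZMod.valMinAbs_inj.1 h
      exact sub_left_injective h'
  rw [Int.card_Icc] at h
  omega

lemma card_bx (c : ZMod N × ZMod N) (r : ℕ) : (bx c r).card ≤ (2 * r + 1) ^ 2 := by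
  have h : bx c r = (univ.filter fun x : ZMod N => (x - c.1).valMinAbs.natAbs ≤ r) ×ˢ
      (univ.filter fun x : ZMod N => (x - c.2).valMinAbs.natAbs ≤ r) := by
    ext x
    rw [mem_bx, Finset.mem_product]
    simp
  rw [h, Finset.card_product, sq]
  exact Nat.mul_le_mul (card_line r _) (card_line r _)

lemma natAbs_add_one {r : ℕ} {a : ZMod N} (h : a.valMinAbs.natAbs ≤ r)
    (h2 : ¬ (a + 1).valMinAbs.natAbs ≤ r) : a = (r : ZMod N) := by
  have h3 : a.valMinAbs = r := by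
    by_contra hne
    apply h2
    have h4 : (a.valMinAbs + 1).natAbs ≤ r := by omega
    have h5 : (((a + 1).valMinAbs : ℤ) : ZMod N) = ((a.valMinAbs + 1 : ℤ) : ZMod N) := by
      rw [ZMod.coe_valMinAbs, Int.cast_add, ZMod.coe_valMinAbs, Int.cast_one]
    have h6 : (a + 1).valMinAbs.natAbs ≤ (a.valMinAbs + 1).natAbs :=
      ZMod.natAbs_min_of_le_div_two N _ _ h5 (ZMod.natAbs_valMinAbs_le _)
    omega
  have := ZMod.coe_valMinAbs a
  rw [h3] at this
  rw [← this]
  simp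

lemma lv_e1 (c : ZMod N × ZMod N) (r : ℕ) : lv (bx c r) (1, 0) ≤ 2 * r + 1 := by
  unfold lv
  refine le_trans ?_ (card_line r c.2)
  refine Finset.card_le_card_of_injOn (fun x => x.2) ?_ ?_
  · intro x hx
    rw [Finset.mem_coe, Finset.mem_filter, mem_bx] at hx
    simp only [coe_filter, mem_univ, true_and, Set.mem_ofPred_eq]
    exact hx.1.2
  · have key : ∀ x ∈ (bx c r).filter (fun x => x + (1, 0) ∉ bx c r), x.1 - c.1 = (r : ZMod N) := by
      intro x hx
      rw [Finset.mem_filter, mem_bx, mem_bx] at hx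
      refine natAbs_add_one hx.1.1 fun h => hx.2 ⟨?_, ?_⟩
      · have : (x + (1, 0)).1 - c.1 = x.1 - c.1 + 1 := by
          simp; ring
        rw [this]
        exact h
      · simpa using hx.1.2
    intro x hx y hy h
    have h1 := key x hx
    have h2 := key y hy
    refine Prod.ext ?_ h
    have := h1.trans h2.symm
    exact sub_left_injective this

lemma lv_e2 (c : ZMod N × ZMod N) (r : ℕ) : lv (bx c r) (0, 1) ≤ 2 * r + 1 := by
  unfold lv
  refine le_trans ?_ (card_line r c.1)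
  refine Finset.card_le_card_of_injOn (fun x => x.1) ?_ ?_
  · intro x hx
    rw [Finset.mem_coe, Finset.mem_filter, mem_bx] at hx
    simp only [coe_filter, mem_univ, true_and, Set.mem_ofPred_eq]
    exact hx.1.1
  · have key : ∀ x ∈ (bx c r).filter (fun x => x + (0, 1) ∉ bx c r), x.2 - c.2 = (r : ZMod N) := by
      intro x hx
      rw [Finset.mem_filter, mem_bx, mem_bx] at hx
      refine natAbs_add_one hx.1.2 fun h => hx.2 ⟨?_, ?_⟩
      · simpa using hx.1.1
      · have : (x + (0, 1)).2 - c.2 = x.2 - c.2 + 1 := by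
          simp; ring
        rw [this]
        exact h
    intro x hx y hy h
    have h1 := key x hx
    have h2 := key y hy
    refine Prod.ext h ?_
    have := h1.trans h2.symm
    exact sub_left_injective this

/-- the boundary crossing count of a box. -/
lemma lv_bx (c : ZMod N × ZMod N) (r : ℕ) (w : ZMod N × ZMod N) :
    lv (bx c r) w ≤ (2 * r + 1) * (min w.1.valMinAbs.natAbs (2 * r + 1) +
      min w.2.valMinAbs.natAbs (2 * r + 1)) := by
  have h1 : lv (bx c r) (w.1, 0) ≤ (2 * r + 1) * min w.1.valMinAbs.natAbs (2 * r + 1) := by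
    rw [← Nat.mul_min_mul_left]
    refine le_min ?_ ?_
    · have := lv_zsmul (bx c r) (1, 0) w.1.valMinAbs
      have e : w.1.valMinAbs • ((1 : ZMod N), (0 : ZMod N)) = (w.1, 0) := by
        ext <;> simp
      rw [e] at this
      refine this.trans ?_
      rw [mul_comm]
      exact Nat.mul_le_mul_right _ (lv_e1 c r)
    · refine (lv_le_card _ _).trans ((card_bx c r).trans ?_)
      rw [sq]
  have h2 : lv (bx c r) (0, w.2) ≤ (2 * r + 1) * min w.2.valMinAbs.natAbs (2 * r + 1) := by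
    rw [← Nat.mul_min_mul_left]
    refine le_min ?_ ?_
    · have := lv_zsmul (bx c r) (0, 1) w.2.valMinAbs
      have e : w.2.valMinAbs • ((0 : ZMod N), (1 : ZMod N)) = (0, w.2) := by
        ext <;> simp
      rw [e] at this
      refine this.trans ?_
      rw [mul_comm]
      exact Nat.mul_le_mul_right _ (lv_e2 c r)
    · refine (lv_le_card _ _).trans ((card_bx c r).trans ?_)
      rw [sq]
  have h3 := lv_add (bx c r) (w.1, 0) (0, w.2)
  have e : ((w.1, 0) : ZMod N × ZMod N) + (0, w.2) = w := by ext <;> simp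
  rw [e] at h3
  rw [mul_add]
  omega

/-- tail of `G`. -/
def tl (G : ZMod N × ZMod N → ℝ) (s : ℕ) : ℝ :=
  ∑ w ∈ univ.filter (fun w : ZMod N × ZMod N => s ≤ w.1.valMinAbs.natAbs), G w

lemma tl_le (G : ZMod N × ZMod N → ℝ) (hG : ∀ w, 0 ≤ G w) (s : ℕ) : tl G s ≤ ∑ w, G w :=
  Finset.sum_le_sum_of_subset_of_nonneg (Finset.filter_subset _ _) fun w _ _ => hG w

lemma sum_min (G : ZMod N × ZMod N → ℝ) (m : ℕ) :
    ∑ w : ZMod N × ZMod N, G w * (min w.1.valMinAbs.natAbs m : ℕ) =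
      ∑ s ∈ range m, tl G (s + 1) := by
  unfold tl
  have h : ∀ w : ZMod N × ZMod N, ((min w.1.valMinAbs.natAbs m : ℕ) : ℝ) =
      ∑ s ∈ range m, (if s + 1 ≤ w.1.valMinAbs.natAbs then (1 : ℝ) else 0) := by
    intro w
    rw [Finset.sum_boole]
    congr 1
    have : (range m).filter (fun s => s + 1 ≤ w.1.valMinAbs.natAbs) =
        range (min w.1.valMinAbs.natAbs m) := by
      ext s
      simp only [mem_filter, mem_range]
      omega
    rw [this, card_range]
  simp_rw [h, Finset.mul_sum]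
  rw [Finset.sum_comm]
  refine Finset.sum_congr rfl fun s _ => ?_
  rw [Finset.sum_filter]
  refine Finset.sum_congr rfl fun w _ => ?_
  split_ifs <;> simp

/-- leaving mass = weighted crossing count. -/
lemma leave_eq (G : ZMod N × ZMod N → ℝ) (Λ : Finset (ZMod N × ZMod N)) :
    (Λ.card : ℝ) * ∑ w, G w - ∑ x ∈ Λ, ∑ z ∈ Λ, G (z - x) = ∑ w, G w * (lv Λ w : ℝ) := by
  have h1 : ∀ x : ZMod N × ZMod N, ∑ z ∈ Λ, G (z - x) =
      ∑ w, if x + w ∈ Λ then G w else 0 := by
    intro x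
    rw [← Equiv.sum_comp (Equiv.subRight x) (fun w => if x + w ∈ Λ then G w else 0)]
    simp only [Equiv.subRight_apply, add_sub_cancel]
    rw [Finset.sum_ite_mem]
    simp
  have h2 : ∀ w, (lv Λ w : ℝ) = ∑ x ∈ Λ, if x + w ∉ Λ then (1 : ℝ) else 0 := by
    intro w
    rw [Finset.sum_boole]
    rfl
  simp_rw [h1, h2, Finset.mul_sum]
  rw [Finset.sum_comm (s := univ) (t := Λ)]
  have h3 : ∑ w, (Λ.card : ℝ) * G w = ∑ x ∈ Λ, ∑ w, G w := by
    rw [Finset.sum_const, nsmul_eq_mul, Finset.mul_sum]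
  rw [h3, ← Finset.sum_sub_distrib]
  refine Finset.sum_congr rfl fun x _ => ?_
  rw [← Finset.sum_sub_distrib]
  refine Finset.sum_congr rfl fun w _ => ?_
  by_cases h : x + w ∈ Λ <;> simp [h]

lemma sum_inv_sq (ξ : ℕ) (hξ : 1 ≤ ξ) (m : ℕ) :
    ∑ s ∈ range m, (if ξ ≤ s then (1 : ℝ) / ((s : ℝ) + 1) ^ 2 else (0 : ℝ)) ≤ 1 / (ξ : ℝ) := by
  have hx : (0 : ℝ) < ξ := by exact_mod_cast hξ
  have h : ∀ m : ℕ, ∑ s ∈ range m, (if ξ ≤ s then (1 : ℝ) / ((s : ℝ) + 1) ^ 2 else (0 : ℝ)) ≤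
      if ξ ≤ m then 1 / (ξ : ℝ) - 1 / ((m : ℝ) + 0) else 0 := by
    intro m
    induction m with
    | zero =>
      have : ¬ ξ ≤ 0 := by omega
      simp [this]
    | succ m ih =>
      rw [Finset.sum_range_succ]
      by_cases h1 : ξ ≤ m
      · have h2 : ξ ≤ m + 1 := by omega
        rw [if_pos h1] at ih ⊢
        rw [if_pos h2]
        have hm : (0 : ℝ) < m := lt_of_lt_of_le hx (by exact_mod_cast h1)
        have h3 : (1 : ℝ) / ((m : ℝ) + 1) ^ 2 ≤ 1 / (m : ℝ) - 1 / ((m : ℝ) + 1) := by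
          rw [div_sub_div _ _ hm.ne' (by positivity), div_le_div_iff₀ (by positivity)
            (by positivity)]
          nlinarith
        push_cast
        simp only [add_zero] at ih ⊢
        linarith
      · rw [if_neg h1] at ih ⊢
        by_cases h2 : ξ ≤ m + 1
        · have h3 : ξ = m + 1 := by omega
          rw [if_pos h2]
          have h4 : (ξ : ℝ) = (m : ℝ) + 1 := by rw [h3]; push_cast; ring
          rw [h4]
          push_cast
          simp only [add_zero, sub_self]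
          linarith
        · rw [if_neg h2]
          linarith
  refine (h m).trans ?_
  split_ifs with h1
  · have : (0 : ℝ) ≤ 1 / ((m : ℝ) + 0) := by positivity
    linarith
  · positivity

/-- **Row LAMB.** -/
theorem lamb {ξ : ℕ} (hξ : 1 ≤ ξ) (c : ZMod N × ZMod N) (r : ℕ) (G : ZMod N × ZMod N → ℝ)
    (hG : ∀ w, 0 ≤ G w) (hs : ∀ w, G (w.2, w.1) = G w) {y A : ℝ} (hy0 : 0 ≤ y) (hA0 : 0 ≤ A)
    (hy : (1 - y) * (ξ : ℝ) ^ 2 ≤ ∑ w, G w) (htot : ∑ w, G w ≤ (ξ : ℝ) ^ 2)
    (hA : ∀ s : ℕ, ξ ≤ s → tl G s ≤ A * (ξ : ℝ) ^ 2 * (y + (ξ : ℝ) ^ 2 / (s : ℝ) ^ 2)) :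
    ((bx c r).card : ℝ) * (ξ : ℝ) ^ 2 - ∑ x ∈ bx c r, ∑ z ∈ bx c r, G (z - x) ≤
      (1 + 2 * A) * (y * (ξ : ℝ) ^ 2 * (2 * r + 1) ^ 2) + 2 * (1 + A) * ((2 * r + 1) * (ξ : ℝ) ^ 3) := by
  have hx : (0 : ℝ) < ξ := by exact_mod_cast hξ
  set m : ℕ := 2 * r + 1 with hm
  have hmr : (m : ℝ) = 2 * r + 1 := by rw [hm]; push_cast; ring
  -- sum of the tails
  have h1 : ∑ s ∈ range m, tl G (s + 1) ≤ (1 + A) * (ξ : ℝ) ^ 3 + A * (ξ : ℝ) ^ 2 * y * m := by
    have h2 : ∀ s ∈ range m, tl G (s + 1) ≤ (if s < ξ then (ξ : ℝ) ^ 2 else 0) +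
        (A * (ξ : ℝ) ^ 2 * y + A * (ξ : ℝ) ^ 4 *
          (if ξ ≤ s then (1 : ℝ) / ((s : ℝ) + 1) ^ 2 else (0 : ℝ))) := by
      intro s _
      by_cases h : s < ξ
      · have h' : ¬ ξ ≤ s := by omega
        rw [if_pos h, if_neg h']
        have := (tl_le G hG (s + 1)).trans htot
        have : 0 ≤ A * (ξ : ℝ) ^ 2 * y := by positivity
        linarith
      · have h' : ξ ≤ s := by omega
        rw [if_neg h, if_pos h']
        have := hA (s + 1) (by omega)
        push_cast at this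
        refine this.trans (le_of_eq ?_)
        field_simp
        ring
    refine (Finset.sum_le_sum h2).trans ?_
    rw [Finset.sum_add_distrib, Finset.sum_add_distrib, ← Finset.mul_sum (a := A * (ξ : ℝ) ^ 4)]
    have h3 : ∑ s ∈ range m, (if s < ξ then (ξ : ℝ) ^ 2 else 0) ≤ (ξ : ℝ) ^ 3 := by
      rw [← Finset.sum_filter, Finset.sum_const, nsmul_eq_mul]
      have : ((range m).filter fun s => s < ξ).card ≤ ξ := by
        have h4 : ((range m).filter fun s => s < ξ) ⊆ range ξ := by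
          intro s hs
          rw [Finset.mem_filter] at hs
          exact Finset.mem_range.2 hs.2
        simpa using Finset.card_le_card h4
      have h5 : (((range m).filter fun s => s < ξ).card : ℝ) ≤ ξ := by exact_mod_cast this
      calc _ ≤ (ξ : ℝ) * (ξ : ℝ) ^ 2 := by gcongr
        _ = (ξ : ℝ) ^ 3 := by ring
    have h6 := sum_inv_sq ξ hξ m
    have h7 : A * (ξ : ℝ) ^ 4 * ∑ s ∈ range m, (if ξ ≤ s then (1 : ℝ) / ((s : ℝ) + 1) ^ 2 else (0 : ℝ))
        ≤ A * (ξ : ℝ) ^ 3 := by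
      calc _ ≤ A * (ξ : ℝ) ^ 4 * (1 / ξ) := by gcongr
        _ = A * (ξ : ℝ) ^ 3 := by field_simp
    rw [Finset.sum_const, card_range, nsmul_eq_mul]
    linarith
  -- the leaving mass
  have h8 : ∑ w, G w * (lv (bx c r) w : ℝ) ≤ 2 * (m : ℝ) * ∑ s ∈ range m, tl G (s + 1) := by
    have h9 : ∑ w, G w * (lv (bx c r) w : ℝ) ≤
        ∑ w : ZMod N × ZMod N, G w * ((m : ℝ) * ((min w.1.valMinAbs.natAbs m : ℕ) +
          (min w.2.valMinAbs.natAbs m : ℕ))) := by
      refine Finset.sum_le_sum fun w _ => mul_le_mul_of_nonneg_left ?_ (hG w)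
      have := lv_bx c r w
      rw [← hm] at this
      exact_mod_cast this
    refine h9.trans (le_of_eq ?_)
    have h10 : ∑ w : ZMod N × ZMod N, G w * ((min w.2.valMinAbs.natAbs m : ℕ) : ℝ) =
        ∑ w : ZMod N × ZMod N, G w * ((min w.1.valMinAbs.natAbs m : ℕ) : ℝ) := by
      rw [← Equiv.sum_comp (Equiv.prodComm _ _)]
      refine Finset.sum_congr rfl fun w _ => ?_
      simp only [Equiv.prodComm_apply, Prod.swap, hs w]
    rw [← sum_min]
    have h11 : ∑ w : ZMod N × ZMod N, G w * ((m : ℝ) * ((min w.1.valMinAbs.natAbs m : ℕ) +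
          (min w.2.valMinAbs.natAbs m : ℕ))) =
        (m : ℝ) * (∑ w : ZMod N × ZMod N, G w * ((min w.1.valMinAbs.natAbs m : ℕ) : ℝ) +
          ∑ w : ZMod N × ZMod N, G w * ((min w.2.valMinAbs.natAbs m : ℕ) : ℝ)) := by
      rw [← Finset.sum_add_distrib, Finset.mul_sum]
      exact Finset.sum_congr rfl fun w _ => by ring
    rw [h11, h10]
    ring
  have h12 := leave_eq G (bx c r)
  have h13 : ((bx c r).card : ℝ) ≤ (m : ℝ) ^ 2 := by
    have := card_bx c r
    rw [← hm] at this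
    exact_mod_cast this
  have h14 : ((bx c r).card : ℝ) * (ξ : ℝ) ^ 2 ≤
      ((bx c r).card : ℝ) * ∑ w, G w + y * (ξ : ℝ) ^ 2 * (m : ℝ) ^ 2 := by
    have h15 : (ξ : ℝ) ^ 2 ≤ ∑ w, G w + y * (ξ : ℝ) ^ 2 := by linarith
    calc ((bx c r).card : ℝ) * (ξ : ℝ) ^ 2
        ≤ ((bx c r).card : ℝ) * (∑ w, G w + y * (ξ : ℝ) ^ 2) := by gcongr
      _ = ((bx c r).card : ℝ) * ∑ w, G w + ((bx c r).card : ℝ) * (y * (ξ : ℝ) ^ 2) := by ring
      _ ≤ ((bx c r).card : ℝ) * ∑ w, G w + (m : ℝ) ^ 2 * (y * (ξ : ℝ) ^ 2) := by gcongr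
      _ = _ := by ring
  have h16 : 2 * (m : ℝ) * ∑ s ∈ range m, tl G (s + 1) ≤
      2 * (m : ℝ) * ((1 + A) * (ξ : ℝ) ^ 3 + A * (ξ : ℝ) ^ 2 * y * m) := by gcongr
  rw [← hmr]
  nlinarith [h8, h12, h14, h16]

end

end Vale.Agent.P159.TM.H764
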