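import Vale.Agent.P159.TM.H859.Rec
import Vale.Agent.P159.TM.H764.Slope
import Vale.Agent.P159.TM.Spec.C

/-!
Numerical facts for the seam `StepQ`: with `L = log (1/y)`, `K ≈ k L`, `M ≈ L ^ p`, every power of
`K M` times `√y` is small.
-/

open Real

namespace Vale.Agent.P159.TM.H764

open Vale.Agent.P159.TM.H859 (Mn log_pow_le le_Mn two_le_Mn Mn_le)
open Vale.Agent.P159.TM.SpecC (Kn)

noncomputable section

/-- `(log (1/y))^m √y ≤ ε` for small `y`. -/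
theorem log_pow_sqrt (m : ℕ) {ε : ℝ} (hε : 0 < ε) : ∃ y0 : ℝ, 0 < y0 ∧ ∀ y : ℝ, 0 < y → y ≤ 1 →
    y ≤ y0 → (Real.log (1 / y)) ^ m * √y ≤ ε := by
  obtain ⟨K, hK, h⟩ := log_pow_le m
  refine ⟨(ε / (K + 1)) ^ 4, by positivity, ?_⟩
  intro y hy hy1 hy0
  have h1 := h y hy hy1
  have hs : √y = y ^ (1 / 4 : ℝ) * y ^ (1 / 4 : ℝ) := by
    rw [← Real.rpow_add hy, Real.sqrt_eq_rpow]; norm_num
  have h2 : y ^ (1 / 4 : ℝ) ≤ ε / (K + 1) := by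
    have h3 : y ^ (1 / 4 : ℝ) ≤ ((ε / (K + 1)) ^ (4 : ℕ)) ^ (1 / 4 : ℝ) :=
      Real.rpow_le_rpow hy.le hy0 (by norm_num)
    refine h3.trans (le_of_eq ?_)
    rw [← Real.rpow_natCast, ← Real.rpow_mul (by positivity)]
    norm_num
  have h4 : y ^ (-(1 / 4 : ℝ)) * y ^ (1 / 4 : ℝ) = 1 := by
    rw [← Real.rpow_add hy]; norm_num
  have h5 : 0 ≤ y ^ (1 / 4 : ℝ) := by positivity
  calc (Real.log (1 / y)) ^ m * √y ≤ K * y ^ (-(1 / 4 : ℝ)) * √y :=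
        mul_le_mul_of_nonneg_right h1 (Real.sqrt_nonneg _)
    _ = K * (y ^ (-(1 / 4 : ℝ)) * y ^ (1 / 4 : ℝ)) * y ^ (1 / 4 : ℝ) := by rw [hs]; ring
    _ = K * y ^ (1 / 4 : ℝ) := by rw [h4, mul_one]
    _ ≤ (K + 1) * (ε / (K + 1)) := by
        refine mul_le_mul (by linarith) h2 h5 (by linarith)
    _ = ε := by field_simp

theorem log_ge {Λ y : ℝ} (hy : 0 < y) (h : y ≤ Real.exp (-Λ)) : Λ ≤ Real.log (1 / y) := by
  have h2 := Real.log_le_log hy h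
  rw [Real.log_exp] at h2
  rw [one_div, Real.log_inv]
  linarith

theorem Kn_ge {k : ℕ} (hk : 1 ≤ k) {y : ℝ} (hL : 0 ≤ Real.log (1 / y)) :
    Real.log (1 / y) ≤ (Kn k y : ℝ) := by
  have h1 : (k : ℝ) * Real.log (1 / y) ≤ (⌈(k : ℝ) * Real.log (1 / y)⌉₊ : ℝ) := Nat.le_ceil _
  have h2 : (1 : ℝ) ≤ k := by exact_mod_cast hk
  unfold Kn
  push_cast
  nlinarith

theorem Kn_le {k : ℕ} {y : ℝ} (hL : 1 ≤ Real.log (1 / y)) :
    (Kn k y : ℝ) ≤ ((k : ℝ) + 2) * Real.log (1 / y) := by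
  have h1 : (⌈(k : ℝ) * Real.log (1 / y)⌉₊ : ℝ) < (k : ℝ) * Real.log (1 / y) + 1 :=
    Nat.ceil_lt_add_one (by positivity)
  unfold Kn
  push_cast
  nlinarith

theorem Mn_ge {p : ℕ} (hp : 1 ≤ p) {y : ℝ} (hL : 1 ≤ Real.log (1 / y)) :
    Real.log (1 / y) ≤ (Mn p y : ℝ) := by
  refine le_trans ?_ (le_Mn p y)
  calc Real.log (1 / y) = Real.log (1 / y) ^ 1 := (pow_one _).symm
    _ ≤ _ := pow_le_pow_right₀ hL hp

/-- all smallness conditions at once. -/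
theorem small (k p : ℕ) (hk : 1 ≤ k) (hp : 1 ≤ p) (Λ : ℝ) {ε : ℝ} (hε : 0 < ε) :
    ∃ y0 : ℝ, 0 < y0 ∧ y0 ≤ 1 / 4 ∧ ∀ y : ℝ, 0 < y → y ≤ y0 →
      1 ≤ Real.log (1 / y) ∧ Λ ≤ Real.log (1 / y) ∧ Real.log (1 / y) ≤ Kn k y ∧
      Real.log (1 / y) ≤ Mn p y ∧ (Kn k y : ℝ) ^ 4 * (Mn p y : ℝ) ^ 4 * √y ≤ ε := by
  set D : ℝ := ((k : ℝ) + 2) ^ 4 * 3 ^ 4 with hD
  have hD0 : 0 < D := by positivity
  obtain ⟨y1, hy1, h1⟩ := log_pow_sqrt (4 + 4 * p) (div_pos hε hD0)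
  refine ⟨min (min (1 / 4) y1) (min (Real.exp (-1)) (Real.exp (-Λ))), by positivity,
    (min_le_left _ _).trans (min_le_left _ _), ?_⟩
  intro y hy hyy
  have a1 : y ≤ 1 / 4 := hyy.trans ((min_le_left _ _).trans (min_le_left _ _))
  have a2 : y ≤ y1 := hyy.trans ((min_le_left _ _).trans (min_le_right _ _))
  have a3 : y ≤ Real.exp (-1) := hyy.trans ((min_le_right _ _).trans (min_le_left _ _))
  have a4 : y ≤ Real.exp (-Λ) := hyy.trans ((min_le_right _ _).trans (min_le_right _ _))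
  have hL := log_ge hy a3
  have hL0 : 0 ≤ Real.log (1 / y) := by linarith
  refine ⟨hL, log_ge hy a4, Kn_ge hk hL0, Mn_ge hp hL, ?_⟩
  have b1 := Kn_le (k := k) hL
  have b2 : (Mn p y : ℝ) ≤ 3 * Real.log (1 / y) ^ p := by
    have := Mn_le p hy (by linarith)
    have : 1 ≤ Real.log (1 / y) ^ p := one_le_pow₀ hL
    linarith
  have b3 := h1 y hy (by linarith) a2
  have b4 : (Kn k y : ℝ) ^ 4 ≤ (((k : ℝ) + 2) * Real.log (1 / y)) ^ 4 :=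
    pow_le_pow_left₀ (Nat.cast_nonneg _) b1 4
  have b5 : (Mn p y : ℝ) ^ 4 ≤ (3 * Real.log (1 / y) ^ p) ^ 4 :=
    pow_le_pow_left₀ (Nat.cast_nonneg _) b2 4
  calc (Kn k y : ℝ) ^ 4 * (Mn p y : ℝ) ^ 4 * √y
      ≤ (((k : ℝ) + 2) * Real.log (1 / y)) ^ 4 * (3 * Real.log (1 / y) ^ p) ^ 4 * √y := by
        gcongr
    _ = D * (Real.log (1 / y) ^ (4 + 4 * p) * √y) := by
        rw [hD]; ring
    _ ≤ D * (ε / D) := by gcongr
    _ = ε := by field_simp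

end

end Vale.Agent.P159.TM.H764
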