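import Vale.Agent.P159.TM.H764.Num
import Vale.Agent.P159.TM.H41.Ker2
import Vale.Agent.P159.TM.Spec.AB
import Vale.Agent.P159.TM.Frame.Lit

/-!
Row STEPQ (seam): Theorem B, the step of part C, exponential decay, E7 and the chord give the
inductive step `StepQ` of the frame.
-/

open Finset Real

namespace Vale.Agent.P159.TM.H764

open Vale.Agent.P159.TM.H859 (Mn two_le_Mn)
open Vale.Agent.P159.TM.SpecC (Kn wT ms StepC)
open Vale.Agent.P159.TM.H104 (ddU)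

noncomputable section

/-- fourth moment from exponential decay -/
theorem M4_of_exp {N : ℕ} [NeZero N] {G' : ZMod N × ZMod N → ℝ} (hG : ∀ w, 0 ≤ G' w) {c C ξ : ℝ}
    (hc : 0 < c) (hξ : 0 < ξ)
    (h : ∑ w, G' w * Real.exp (c * H459.sn w / ξ) ≤ C * ξ ^ 2) :
    M4 G' ≤ 24 * C / c ^ 4 * ξ ^ 6 := by
  have h1 : ∀ w : ZMod N × ZMod N, (w.1.valMinAbs : ℝ) ^ 4 * G' w ≤
      24 * ξ ^ 4 / c ^ 4 * (G' w * Real.exp (c * H459.sn w / ξ)) := by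
    intro w
    have h2 : (w.1.valMinAbs : ℝ) ^ 4 ≤ (H459.sn w : ℝ) ^ 4 := by
      have h3 : |(w.1.valMinAbs : ℝ)| ≤ H459.sn w := by
        have h4 : |(w.1.valMinAbs : ℝ)| = (w.1.valMinAbs.natAbs : ℝ) := by
          rw [Nat.cast_natAbs]; push_cast; rfl
        rw [h4]
        exact_mod_cast le_max_left _ _
      calc (w.1.valMinAbs : ℝ) ^ 4 = |(w.1.valMinAbs : ℝ)| ^ 4 := by
            rw [show (4 : ℕ) = 2 * 2 by norm_num, pow_mul, pow_mul, sq_abs]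
        _ ≤ _ := by gcongr
    have h5 : (c * H459.sn w / ξ) ^ 4 / 24 ≤ Real.exp (c * H459.sn w / ξ) := by
      have h6 := Real.pow_div_factorial_le_exp (c * H459.sn w / ξ) (by positivity) 4
      have h7 : ((4 : ℕ).factorial : ℝ) = 24 := by norm_num [Nat.factorial]
      rwa [h7] at h6
    have h8 : (H459.sn w : ℝ) ^ 4 ≤ 24 * ξ ^ 4 / c ^ 4 * Real.exp (c * H459.sn w / ξ) := by
      calc (H459.sn w : ℝ) ^ 4 = 24 * ξ ^ 4 / c ^ 4 * ((c * H459.sn w / ξ) ^ 4 / 24) := by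
            field_simp
        _ ≤ _ := by gcongr
    have h9 := hG w
    calc (w.1.valMinAbs : ℝ) ^ 4 * G' w ≤ (24 * ξ ^ 4 / c ^ 4 * Real.exp (c * H459.sn w / ξ)) *
          G' w := by gcongr; exact h2.trans h8
      _ = _ := by ring
  calc M4 G' ≤ ∑ w, 24 * ξ ^ 4 / c ^ 4 * (G' w * Real.exp (c * H459.sn w / ξ)) :=
        Finset.sum_le_sum fun w _ => h1 w
    _ = 24 * ξ ^ 4 / c ^ 4 * ∑ w, G' w * Real.exp (c * H459.sn w / ξ) := by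
        rw [Finset.mul_sum]
    _ ≤ 24 * ξ ^ 4 / c ^ 4 * (C * ξ ^ 2) := by gcongr
    _ = _ := by ring

/-- a negative slope is tiny -/
theorem slope_neg {N : ℕ} [NeZero N] (hN : 2 ≤ N) {b ξ y a : ℝ} (hb : 0 ≤ b) (hξ : 1 ≤ ξ)
    (h : QU ξ (H41.G b N ξ) y a) (ha : a < 0) : -a ≤ y := by
  classical
  set u : ZMod N × ZMod N → ℝ := fun x => if x = 0 then 1 else 0 with hu
  have hξ0 : 0 < ξ := by linarith
  have h1 := h u
  have h2 := H41.frm_le (N := N) hb hξ0 u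
  have h3 : ∑ x, u x ^ 2 = 1 := by
    rw [hu]
    simp
  have h4 : 1 ≤ grd u := by
    have h10 : ((1, 0) : ZMod N × ZMod N) ≠ 0 := by
      intro hh
      have h11 := congrArg Prod.fst hh
      simp only [Prod.fst_zero] at h11
      have : Fact (1 < N) := ⟨by omega⟩
      exact one_ne_zero h11
    have h5 : 1 ≤ Q u (1, 0) := by
      unfold Q
      calc (1 : ℝ) = (u (0 + (1, 0)) - u 0) ^ 2 := by
            rw [hu]
            simp only [zero_add, if_neg h10, if_true]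
            norm_num
        _ ≤ ∑ x, (u (x + (1, 0)) - u x) ^ 2 :=
            Finset.single_le_sum (f := fun x => (u (x + (1, 0)) - u x) ^ 2)
              (fun x _ => sq_nonneg _) (Finset.mem_univ 0)
    have h6 : 0 ≤ Q u (0, 1) := by
      unfold Q
      exact Finset.sum_nonneg fun x _ => sq_nonneg _
    unfold grd
    linarith
  rw [h3] at h1 h2
  -- `-a ξ⁴ grd ≤ y ξ²`
  have h7 : -a * ξ ^ 4 * grd u ≤ y * ξ ^ 2 := by linarith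
  have h8 : -a * ξ ^ 4 * 1 ≤ -a * ξ ^ 4 * grd u := by
    refine mul_le_mul_of_nonneg_left h4 ?_
    have : 0 ≤ -a := by linarith
    positivity
  have h9 : (-a * ξ ^ 2) * ξ ^ 2 ≤ y * ξ ^ 2 := by nlinarith
  have h12 : -a * ξ ^ 2 ≤ y := le_of_mul_le_mul_right h9 (by positivity)
  have h13 : -a * 1 ≤ -a * ξ ^ 2 := by
    refine mul_le_mul_of_nonneg_left ?_ (by linarith)
    nlinarith
  linarith

/-- fourth moment of the kernel in the standing range, tori with `N y ≤ c ξ` -/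
def M4Spec (b1 b2 a : ℝ) : Prop :=
  ∃ W₀ : ℝ, ∀ W : ℝ, W₀ ≤ W → ∃ c C ys : ℝ, ∃ X : ℕ, 0 < c ∧ 0 < C ∧ 0 < ys ∧ 1 ≤ X ∧
    ∀ (N : ℕ) [NeZero N] (b : ℝ) (ξ : ℕ) (y : ℝ),
      Spec.Rng b1 b2 a W ys X N b ξ y → (N : ℝ) * y ≤ c * ξ →
        M4 (H41.G b N (ξ : ℝ)) ≤ C * (ξ : ℝ) ^ 6

/-- one step at one scale, all smallness conditions as hypotheses -/
theorem step_one {N : ℕ} [NeZero N] {b W A y a C4 : ℝ} {K M ξ : ℕ} (hb : 0 ≤ b)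
    (hK : 1 ≤ K) (hM : 2 ≤ M) (hξ : 1 ≤ ξ) (hN : N = K * M * ξ)
    (h : QU (ξ : ℝ) (H41.G b N (ξ : ℝ)) y a)
    (hC : ddU (wT b N) (ms ((M : ℝ) * ξ)) 0 (fun _ => 1) (fun _ => 1) ≤ y / 4 * (K : ℝ) ^ 2)
    (hM4 : M4 (H41.G b N ((M : ℝ) * ξ)) ≤ C4 * ((M : ℝ) * ξ) ^ 6) (hC4 : 0 ≤ C4)
    (hy : 0 ≤ y) (ha : 0 ≤ a) (haA : a ≤ A) (haC : 2 * a ≤ 5)
    (hMW : 8 * a * W ^ 2 ≤ (M : ℝ) ^ 2) (hMy : (M : ℝ) ^ 2 * y ≤ 1) (hy4 : y ≤ 1 / 4)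
    (hKA : 4 * A * (2 * Real.pi / K) ^ 2 ≤ 1 / 4) :
    Hyp 5 W ((M : ℝ) * ξ) (H41.G b N ((M : ℝ) * ξ)) (y / 4)
      (a + (7 * C4 + 320 * A ^ 2 + 2 * A + 1) *
        (1 / (K : ℝ) ^ 2 + (K : ℝ) ^ 2 * (M : ℝ) ^ 2 * y)) := by
  have hξ0 : (0 : ℝ) < ξ := by exact_mod_cast hξ
  have hM1 : (1 : ℝ) ≤ M := by exact_mod_cast (le_trans one_le_two hM)
  have hM0 : (0 : ℝ) < M := by linarith
  have hK1 : (1 : ℝ) ≤ K := by exact_mod_cast hK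
  have hK0 : (0 : ℝ) < K := by linarith
  have hMξ : (0 : ℝ) < (M : ℝ) * ξ := by positivity
  have hle : (ξ : ℝ) ≤ (M : ℝ) * ξ := by nlinarith
  have hNr : (N : ℝ) = (K : ℝ) * ((M : ℝ) * ξ) := by
    rw [hN]; push_cast; ring
  have htot : ∑ w, H41.G b N ((M : ℝ) * ξ) w ≤ ((M : ℝ) * ξ) ^ 2 := by
    rw [← Gh_zero]
    exact H41.Gh_le hb hMξ 0
  refine hyp_next (by norm_num) hξ0 hM1 hK1 hNr (fun w => H41.G_nonneg hb hMξ w)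
    (fun w => H41.G_refl b _ w) (fun w => H41.G_swap b _ w) (fun k => H41.Gh_nonneg hb hMξ k)
    htot ?_ h (H41.e7 hb hξ0 hle) hM4 hC4 hy ha haA haC hMW hMy hy4 hKA
  -- `(1 - y/4) ξ'² ≤ ∑ G'`
  rw [H41.ddU_one hb hMξ, Gh_zero, hNr] at hC
  set S := ∑ w, H41.G b N ((M : ℝ) * ξ) w with hS
  set L := (M : ℝ) * ξ with hL
  have e1 : ((K : ℝ) * L) ^ 2 / L ^ 2 = (K : ℝ) ^ 2 := by
    field_simp
  rw [e1] at hC
  have hK2 : (0 : ℝ) < (K : ℝ) ^ 2 := by positivity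
  have h1 : (K : ℝ) ^ 2 * (1 - S / L ^ 2) ≤ (K : ℝ) ^ 2 * (y / 4) := by linarith
  have h2 : 1 - S / L ^ 2 ≤ y / 4 := le_of_mul_le_mul_left h1 hK2
  have h3 : (1 - y / 4) ≤ S / L ^ 2 := by linarith
  rw [le_div_iff₀ (by positivity)] at h3
  exact h3

/-- numerical consequences of the smallness of `K⁴ M⁴ √y` -/
lemma sm_num {K M y ε : ℝ} (hK : 1 ≤ K) (hM : 2 ≤ M) (hy : 0 < y) (hy4 : y ≤ 1 / 4)
    (h : K ^ 4 * M ^ 4 * √y ≤ ε) :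
    (K * M) ^ 2 * y ≤ ε ∧ M ^ 2 * y ≤ ε ∧ K * (M ^ 2 * y) ≤ ε ∧ K ^ 2 * M * √y ≤ ε := by
  have hs0 : 0 ≤ √y := Real.sqrt_nonneg y
  have hs1 : √y ≤ 1 := by
    rw [← Real.sqrt_one]
    exact Real.sqrt_le_sqrt (by linarith)
  have hss : √y * √y = y := Real.mul_self_sqrt hy.le
  have hys : y ≤ √y := by nlinarith
  have hM1 : 1 ≤ M := by linarith
  have hK2 : 1 ≤ K ^ 2 := one_le_pow₀ hK
  have hM2 : 1 ≤ M ^ 2 := one_le_pow₀ hM1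
  have hK3 : 1 ≤ K ^ 3 := one_le_pow₀ hK
  have hK4 : 1 ≤ K ^ 4 := one_le_pow₀ hK
  have hM3 : 1 ≤ M ^ 3 := one_le_pow₀ hM1
  have hP : 0 ≤ K ^ 4 * M ^ 4 := by positivity
  refine ⟨?_, ?_, ?_, ?_⟩
  · calc (K * M) ^ 2 * y ≤ (K * M) ^ 2 * √y := by gcongr
      _ = K ^ 2 * M ^ 2 * 1 * √y := by ring
      _ ≤ K ^ 2 * M ^ 2 * (K ^ 2 * M ^ 2) * √y := by
          have : 1 ≤ K ^ 2 * M ^ 2 := one_le_mul_of_one_le_of_one_le hK2 hM2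
          gcongr
      _ = K ^ 4 * M ^ 4 * √y := by ring
      _ ≤ ε := h
  · calc M ^ 2 * y ≤ M ^ 2 * √y := by gcongr
      _ = 1 * M ^ 2 * √y := by ring
      _ ≤ (K ^ 4 * M ^ 2) * M ^ 2 * √y := by
          have : 1 ≤ K ^ 4 * M ^ 2 := one_le_mul_of_one_le_of_one_le hK4 hM2
          gcongr
      _ = K ^ 4 * M ^ 4 * √y := by ring
      _ ≤ ε := h
  · calc K * (M ^ 2 * y) ≤ K * (M ^ 2 * √y) := by gcongr
      _ = 1 * (K * M ^ 2) * √y := by ring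
      _ ≤ (K ^ 3 * M ^ 2) * (K * M ^ 2) * √y := by
          have : 1 ≤ K ^ 3 * M ^ 2 := one_le_mul_of_one_le_of_one_le hK3 hM2
          gcongr
      _ = K ^ 4 * M ^ 4 * √y := by ring
      _ ≤ ε := h
  · calc K ^ 2 * M * √y = 1 * (K ^ 2 * M) * √y := by ring
      _ ≤ (K ^ 2 * M ^ 3) * (K ^ 2 * M) * √y := by
          have : 1 ≤ K ^ 2 * M ^ 3 := one_le_mul_of_one_le_of_one_le hK2 hM3
          gcongr
      _ = K ^ 4 * M ^ 4 * √y := by ring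
      _ ≤ ε := h

/-- the crude activity and slope at the scale `M ξ` -/
lemma crude_num {M y a A B : ℝ} (hM : 2 ≤ M) (hy : 0 ≤ y) (hy4 : y ≤ 1 / 4)
    (haB : a ≤ B) (hA : 0 < A) (hyA : y + 1 / M ^ 2 ≤ (A - B) / A) :
    M ^ 2 * y / (1 - y - 1 / M ^ 2) ≤ 2 * (M ^ 2 * y) ∧ a / (1 - y - 1 / M ^ 2) ≤ A := by
  have hM2 : 1 / M ^ 2 ≤ 1 / 4 := by
    apply one_div_le_one_div_of_le (by norm_num)
    nlinarith
  have hM0 : 0 < M := by linarith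
  constructor
  · rw [div_le_iff₀ (by linarith)]
    have : 0 ≤ M ^ 2 * y := by positivity
    nlinarith
  · rw [div_le_iff₀ (by linarith)]
    rw [le_div_iff₀ hA] at hyA
    nlinarith

/-- the numerical facts of one step -/
structure Fct (K M : ℕ) (y X1 X2 η ys2 c2 A W θ : ℝ) : Prop where
  hK1 : 1 ≤ K
  hM2 : 2 ≤ M
  hy4 : y ≤ 1 / 4
  fX1 : X1 ≤ K
  fX2 : X2 ≤ K
  fη : ((K : ℝ) * M) ^ 2 * y ≤ η
  fys : 2 * ((M : ℝ) ^ 2 * y) ≤ ys2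
  fM : (M : ℝ) ^ 2 * y ≤ 1
  fK3 : (K : ℝ) * (2 * ((M : ℝ) ^ 2 * y)) ≤ c2
  fW : 8 * A * W ^ 2 ≤ (M : ℝ) ^ 2
  fθ : y + 1 / (M : ℝ) ^ 2 ≤ θ
  fA : 4 * A * (2 * Real.pi / K) ^ 2 ≤ 1 / 4
  fd1 : 1 / (K : ℝ) ^ 2 ≤ 1 / Real.log (1 / y) ^ 2
  fd2 : (K : ℝ) ^ 2 * (M : ℝ) ^ 2 * y ≤ (M : ℝ) * √y

lemma kA_num {K A : ℝ} (hA : 0 ≤ A) (hK : 0 < K) (h : 4 * A * 64 * 4 * 4 ≤ K ^ 2) :
    4 * A * (2 * Real.pi / K) ^ 2 ≤ 1 / 4 := by
  have hπ := Real.pi_pos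
  have hπ4 := Real.pi_lt_d2
  rw [div_pow]
  have h2 : (2 * Real.pi) ^ 2 ≤ 64 := by nlinarith
  rw [mul_div_assoc', div_le_div_iff₀ (by positivity) (by norm_num)]
  have h3 : 4 * A * (2 * Real.pi) ^ 2 ≤ 4 * A * 64 := by gcongr
  nlinarith

lemma sq_ge {L K : ℝ} (h1 : 1 ≤ L) (h : L ≤ K) : L ≤ K ^ 2 := by nlinarith

theorem fct (k p : ℕ) (hk : 1 ≤ k) (hp : 1 ≤ p) (X1 X2 W : ℝ) {η ys2 c2 A θ : ℝ} (hη : 0 < η)
    (hys2 : 0 < ys2) (hc2 : 0 < c2) (hA : 0 < A) (hθ : 0 < θ) :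
    ∃ y0 : ℝ, 0 < y0 ∧ ∀ y : ℝ, 0 < y → y ≤ y0 →
      Fct (Kn k y) (Mn p y) y X1 X2 η ys2 c2 A W θ := by
  set ε : ℝ := min (min η (ys2 / 2)) (min (1 / 16) (c2 / 2)) with hε
  have hε0 : 0 < ε := by
    rw [hε]
    positivity
  set Λ : ℝ := max (max X1 X2) (max (max (2 / θ) (8 * A * W ^ 2)) (4 * A * 64 * 4 * 4))
    with hΛ
  obtain ⟨y0, hy0, hy04, hsm⟩ := small k p hk hp Λ hε0
  refine ⟨min y0 (θ / 2), by positivity, ?_⟩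
  intro y hy hyy
  obtain ⟨s1, s2, s3, s4, s5⟩ := hsm y hy (hyy.trans (min_le_left _ _))
  have c4 : y ≤ θ / 2 := hyy.trans (min_le_right _ _)
  have hy4 : y ≤ 1 / 4 := (hyy.trans (min_le_left _ _)).trans hy04
  have l1 : X1 ≤ Real.log (1 / y) :=
    ((le_max_left _ _).trans (le_max_left _ _)).trans s2
  have l2 : X2 ≤ Real.log (1 / y) :=
    ((le_max_right _ _).trans (le_max_left _ _)).trans s2
  have l3 : 2 / θ ≤ Real.log (1 / y) :=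
    ((le_max_left _ _).trans ((le_max_left _ _).trans (le_max_right _ _))).trans s2
  have l4 : 8 * A * W ^ 2 ≤ Real.log (1 / y) :=
    ((le_max_right _ _).trans ((le_max_left _ _).trans (le_max_right _ _))).trans s2
  have l5 : 4 * A * 64 * 4 * 4 ≤ Real.log (1 / y) :=
    ((le_max_right _ _).trans (le_max_right _ _)).trans s2
  clear_value Λ
  clear hΛ s2
  have hεη : ε ≤ η := (min_le_left _ _).trans (min_le_left _ _)
  have hεys2 : ε ≤ ys2 / 2 := (min_le_left _ _).trans (min_le_right _ _)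
  have hε16 : ε ≤ 1 / 16 := (min_le_right _ _).trans (min_le_left _ _)
  have hεc2 : ε ≤ c2 / 2 := (min_le_right _ _).trans (min_le_right _ _)
  clear_value ε
  have hK1 : 1 ≤ Kn k y := Frame.one_le_Kn k y
  have hM2 : 2 ≤ Mn p y := two_le_Mn p y
  have hK1r : (1 : ℝ) ≤ (Kn k y : ℝ) := by exact_mod_cast hK1
  have hM2r : (2 : ℝ) ≤ (Mn p y : ℝ) := by exact_mod_cast hM2
  have hK0r : (0 : ℝ) < (Kn k y : ℝ) := by linarith
  have hM0r : (0 : ℝ) < (Mn p y : ℝ) := by linarith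
  obtain ⟨n1, n2, n3, n4⟩ := sm_num hK1r hM2r hy hy4 s5
  generalize Kn k y = K at *
  generalize Mn p y = M at *
  have hMlog := sq_ge s1 s4
  have hKlog := sq_ge s1 s3
  have hz0 : 0 ≤ (M : ℝ) ^ 2 * y := by positivity
  refine ⟨hK1, hM2, hy4, l1.trans s3, l2.trans s3, n1.trans hεη, by linarith, by linarith,
    by linarith, l4.trans hMlog, ?_,
    kA_num hA.le hK0r (l5.trans hKlog), ?_, ?_⟩
  · have h1 : 1 / (M : ℝ) ^ 2 ≤ θ / 2 := by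
      rw [div_le_div_iff₀ (by positivity) (by norm_num)]
      have h2 : 2 / θ ≤ (M : ℝ) ^ 2 := l3.trans hMlog
      rw [div_le_iff₀ hθ] at h2
      linarith
    linarith
  · have hlog0 : 0 < Real.log (1 / y) := by linarith
    apply one_div_le_one_div_of_le (by positivity)
    gcongr
  · have hs0 : 0 ≤ √y := Real.sqrt_nonneg y
    calc (K : ℝ) ^ 2 * (M : ℝ) ^ 2 * y = (K : ℝ) ^ 2 * (M : ℝ) ^ 2 * (√y * √y) := by
          rw [Real.mul_self_sqrt hy.le]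
      _ = ((K : ℝ) ^ 2 * M * √y) * ((M : ℝ) * √y) := by ring
      _ ≤ 1 * ((M : ℝ) * √y) := by
          have : (K : ℝ) ^ 2 * M * √y ≤ 1 := by linarith
          gcongr
      _ = _ := by ring

/-- the fourth moment at the scale `M ξ` -/
theorem m4_next {b1 b2 A W c2 C4 ys2 : ℝ} {X2 : ℕ}
    (hM4 : ∀ (N : ℕ) [NeZero N] (b : ℝ) (ξ : ℕ) (y : ℝ),
      Spec.Rng b1 b2 A W ys2 X2 N b ξ y → (N : ℝ) * y ≤ c2 * ξ →
        M4 (H41.G b N (ξ : ℝ)) ≤ C4 * (ξ : ℝ) ^ 6)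
    (hb1 : 0 ≤ b1) {N : ℕ} [NeZero N] {b : ℝ} (hbb1 : b1 ≤ b) (hbb2 : b ≤ b2)
    {K M xi : ℕ} {y a B X1 η : ℝ} (hN : N = K * M * xi) (hx : 1 ≤ xi) (hX2 : X2 ≤ xi)
    (hy : 0 ≤ y) (ha : 0 ≤ a) (haB : a ≤ B) (hBA : B < A) (hA : 0 < A) (ha5 : a ≤ 5)
    (hF : Fct K M y X1 X2 η ys2 c2 A W ((A - B) / A))
    (hQ : QU (xi : ℝ) (H41.G b N (xi : ℝ)) y a) :
    M4 (H41.G b N ((M : ℝ) * xi)) ≤ C4 * ((M : ℝ) * xi) ^ 6 := by
  obtain ⟨hK1, hM2, hy4, -, fX2, -, fys, fM, fK3, fW, fθ, -, -, -⟩ := hF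
  have hb : 0 ≤ b := hb1.trans hbb1
  have hM2r : (2 : ℝ) ≤ M := by exact_mod_cast hM2
  have hM0r : (0 : ℝ) < M := by linarith
  have hxi0 : (0 : ℝ) < xi := by exact_mod_cast hx
  have hMξ0 : (0 : ℝ) < (M : ℝ) * xi := by positivity
  have hle : (xi : ℝ) ≤ (M : ℝ) * xi := by nlinarith
  have hcast : ((M * xi : ℕ) : ℝ) = (M : ℝ) * xi := by push_cast; ring
  have hNr : (N : ℝ) = (K : ℝ) * ((M : ℝ) * xi) := by
    rw [hN]; push_cast; ring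
  obtain ⟨q1, q2⟩ := crude_num (a := a) hM2r hy hy4 haB hA fθ
  have hMW : 8 * a * W ^ 2 ≤ (M : ℝ) ^ 2 := by
    have h1 : 8 * a * W ^ 2 ≤ 8 * A * W ^ 2 := by
      have : a ≤ A := haB.trans hBA.le
      gcongr
    exact h1.trans fW
  have hyp1 : Hyp 10 W ((M : ℝ) * xi) (H41.G b N ((M : ℝ) * xi)) (2 * ((M : ℝ) ^ 2 * y)) A := by
    have h1 := Hyp.step (C2 := 10) (W := W) (by norm_num) hxi0 hM2r
      (fun k => H41.Gh_nonneg hb hMξ0 k) hQ (H41.e7 hb hxi0 hle)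
      hy hy4 ha (by linarith) hMW fM
    exact h1.mono (by norm_num) le_rfl hMξ0.le q1 q2
  have hyp2 : Hyp 10 W ((M * xi : ℕ) : ℝ) (H41.G b N ((M * xi : ℕ) : ℝ))
      (2 * ((M : ℝ) ^ 2 * y)) A := by
    rw [hcast]
    exact hyp1
  have hX2K : X2 ≤ K := by exact_mod_cast fX2
  have hR2 : Spec.Rng b1 b2 A W ys2 X2 N b (M * xi) (2 * ((M : ℝ) ^ 2 * y)) := by
    refine ⟨hbb1, hbb2, hX2.trans (Nat.le_mul_of_pos_left _ (by omega)), ?_, ?_, by positivity,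
      fys, hyp2⟩
    · rw [hN, mul_assoc]
      exact Nat.mul_le_mul_right _ hX2K
    · rw [hN, mul_assoc]
      exact Dvd.intro_left _ rfl
  have h1 := hM4 N b (M * xi) (2 * ((M : ℝ) ^ 2 * y)) hR2 ?_
  · rw [hcast] at h1
    exact h1
  · rw [hcast, hNr]
    calc (K : ℝ) * ((M : ℝ) * xi) * (2 * ((M : ℝ) ^ 2 * y)) =
          ((K : ℝ) * (2 * ((M : ℝ) ^ 2 * y))) * ((M : ℝ) * xi) := by ring
      _ ≤ c2 * ((M : ℝ) * xi) := by gcongr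

/-- clustering at the scale `ξ` -/
theorem bout_here {b1 b2 A W L0 cb Cb η ys1 : ℝ} {X1 : ℕ}
    (hB : ∀ (N : ℕ) [NeZero N] (b : ℝ) (_ : 0 ≤ b) (ξ : ℕ) (y : ℝ),
      Spec.Rng b1 b2 A W ys1 X1 N b ξ y → (N : ℝ) ^ 2 * y ≤ η * (ξ : ℝ) ^ 2 →
        SpecC.BOut (wT b N) (ξ : ℝ) (L0 / ξ) Cb cb)
    (hb1 : 0 ≤ b1) {N : ℕ} [NeZero N] {b : ℝ} (hbb1 : b1 ≤ b) (hbb2 : b ≤ b2)
    {K M xi : ℕ} {y a X2 ys2 c2 θ : ℝ} (hN : N = K * M * xi) (hX1 : X1 ≤ xi)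
    (hy : 0 ≤ y) (hys : y ≤ ys1) (haA : a ≤ A) (hF : Fct K M y X1 X2 η ys2 c2 A W θ)
    (hH : Hyp 10 W (xi : ℝ) (H41.G b N (xi : ℝ)) y a) :
    SpecC.BOut (wT b N) (xi : ℝ) (L0 / xi) Cb cb := by
  obtain ⟨hK1, hM2, hy4, fX1, -, fη, -, -, -, -, -, -, -, -⟩ := hF
  have hX1K : X1 ≤ K := by exact_mod_cast fX1
  have hNr : (N : ℝ) = (K : ℝ) * ((M : ℝ) * xi) := by
    rw [hN]; push_cast; ring
  refine hB N b (hb1.trans hbb1) xi y ⟨hbb1, hbb2, hX1, ?_, ?_, hy, hys, ?_⟩ ?_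
  · rw [hN]
    exact Nat.mul_le_mul_right xi (hX1K.trans (Nat.le_mul_of_pos_right _ (by omega)))
  · rw [hN]
    exact Dvd.intro_left _ rfl
  · exact hH.mono (by norm_num) le_rfl (Nat.cast_nonneg _) le_rfl haA
  · rw [hNr]
    calc ((K : ℝ) * ((M : ℝ) * xi)) ^ 2 * y = (((K : ℝ) * M) ^ 2 * y) * (xi : ℝ) ^ 2 := by ring
      _ ≤ η * (xi : ℝ) ^ 2 := by gcongr

/-- **StepQ for slopes in `[0, π/2 - δ]`, `δ ≤ 1`.** -/
theorem stepQ_small {b1 b2 A δ : ℝ} (hb1 : 0 ≤ b1) (hδ : 0 < δ) (hδ1 : δ ≤ 1)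
    (hA : Real.pi / 2 - δ < A) (hB : Spec.ThmB b1 b2 A) (hM4 : M4Spec b1 b2 A)
    (hC : ∀ L₀ Cb cb : ℝ, 0 < L₀ → 0 < Cb → 0 < cb → StepC b1 b2 δ L₀ Cb cb) :
    ∃ W0 : ℝ, ∀ W : ℝ, W0 ≤ W → ∃ k0 : ℕ, ∀ k : ℕ, k0 ≤ k →
      ∃ (p : ℕ) (C ys : ℝ) (X : ℕ), 0 ≤ C ∧ 0 < ys ∧ 1 ≤ X ∧
      ∀ b : ℝ, b1 ≤ b → b ≤ b2 → ∀ (N : ℕ) [NeZero N] (xi : ℕ) (y a : ℝ), X ≤ xi → 0 < y →
        y ≤ ys → 0 ≤ a → a ≤ Real.pi / 2 - δ → N = Kn k y * Mn p y * xi →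
        Hyp 10 W (xi : ℝ) (H41.G b N (xi : ℝ)) y a →
        Hyp 5 W ((Mn p y : ℝ) * xi) (H41.G b N ((Mn p y : ℝ) * xi)) (y / 4)
          (a + C * ((Mn p y : ℝ) * √y + 1 / Real.log (1 / y) ^ 2)) := by
  obtain ⟨W1, hB⟩ := hB
  obtain ⟨W2, hM4⟩ := hM4
  refine ⟨max W1 W2, fun W hW => ?_⟩
  obtain ⟨L0, cb, Cb, η, ys1, X1, hL0, hcb, hCb, hη, hys1, hX1, hB⟩ :=
    hB W ((le_max_left _ _).trans hW)
  obtain ⟨c2, C4, ys2, X2, hc2, hC4, hys2, hX2, hM4⟩ := hM4 W ((le_max_right _ _).trans hW)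
  obtain ⟨k1, hC⟩ := hC L0 Cb cb hL0 hCb hcb
  refine ⟨max k1 1, fun k hk => ?_⟩
  obtain ⟨p, hp, ys3, X3, hys3, hC⟩ := hC k ((le_max_left _ _).trans hk)
  have hπ3 := Real.pi_gt_three
  have hπ4 := Real.pi_lt_d2
  have hB0 : 0 ≤ Real.pi / 2 - δ := by linarith
  have hA0 : 0 < A := by linarith
  obtain ⟨y0, hy0, hF⟩ := fct k p ((le_max_right _ _).trans hk) hp X1 X2 W hη hys2 hc2 hA0
    (div_pos (sub_pos.2 hA) hA0)
  refine ⟨p, 7 * C4 + 320 * A ^ 2 + 2 * A + 1,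
    min (min y0 ys1) ys3, max (max (max X1 X2) ⌈X3⌉₊) 1, by positivity, by positivity,
    le_max_right _ _, ?_⟩
  intro b hbb1 hbb2 N _ xi y a hxi hy hyy ha0 haB hN hH
  have c1 : y ≤ ys1 := hyy.trans ((min_le_left _ _).trans (min_le_right _ _))
  have c3 : y ≤ ys3 := hyy.trans (min_le_right _ _)
  have hF := hF y hy (hyy.trans ((min_le_left _ _).trans (min_le_left _ _)))
  have x1 : X1 ≤ xi := ((le_max_left _ _).trans ((le_max_left _ _).trans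
    (le_max_left _ _))).trans hxi
  have x2 : X2 ≤ xi := ((le_max_right _ _).trans ((le_max_left _ _).trans
    (le_max_left _ _))).trans hxi
  have x3 : X3 ≤ (xi : ℝ) := by
    have h1 : ⌈X3⌉₊ ≤ xi := ((le_max_right _ _).trans (le_max_left _ _)).trans hxi
    exact (Nat.le_ceil X3).trans (by exact_mod_cast h1)
  have xone : 1 ≤ xi := (le_max_right _ _).trans hxi
  have hxi0 : (0 : ℝ) < xi := by exact_mod_cast xone
  have hb : 0 ≤ b := hb1.trans hbb1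
  have haA : a ≤ A := haB.trans hA.le
  have hBout := bout_here (fun N _ b hb ξ y h1 h2 => (hB N b hb ξ y h1 h2).2) hb1 hbb1 hbb2 hN
    x1 hy.le c1 haA hF hH
  have hCout := hC b y a xi N hbb1 hbb2 x3 hy c3 ha0 haB hN
    ((H41.QU_iff hb hxi0 y a).2 hH.qu) hBout
  have h4 := m4_next hM4 hb1 hbb1 hbb2 hN xone x2 hy.le ha0 haB hA hA0 (by linarith) hF hH.qu
  obtain ⟨hK1, hM2, hy4, -, -, -, -, fM, -, fW, -, fA, fd1, fd2⟩ := hF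
  have hMW : 8 * a * W ^ 2 ≤ (Mn p y : ℝ) ^ 2 := by
    have h1 : 8 * a * W ^ 2 ≤ 8 * A * W ^ 2 := by gcongr
    exact h1.trans fW
  have hfin := step_one (W := W) (A := A) hb hK1 hM2 xone hN hH.qu hCout h4 hC4.le hy.le ha0
    haA (by linarith) hMW fM hy4 fA
  have hM0 : (0 : ℝ) ≤ (Mn p y : ℝ) * xi := by positivity
  refine hfin.mono (by norm_num) le_rfl hM0 le_rfl ?_
  have d3 : 0 ≤ 7 * C4 + 320 * A ^ 2 + 2 * A + 1 := by positivity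
  have d4 := mul_le_mul_of_nonneg_left (add_le_add fd1 fd2) d3
  linarith

/-- **StepQ (literal, FRAME)** from Theorem B, the fourth moment and part C. -/
theorem stepQ_of {b1 b2 A δ : ℝ} (hb1 : 0 ≤ b1) (hδ : 0 < δ) (hA : Real.pi / 2 ≤ A)
    (hB : Spec.ThmB b1 b2 A) (hM4 : M4Spec b1 b2 A)
    (hC : ∀ δ' L₀ Cb cb : ℝ, 0 < δ' → 0 < L₀ → 0 < Cb → 0 < cb → StepC b1 b2 δ' L₀ Cb cb) :
    Frame.StepQ Frame.QL b1 b2 δ := by
  have hδ' : 0 < min δ 1 := lt_min hδ one_pos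
  have hδ1 : min δ 1 ≤ 1 := min_le_right _ _
  have hδδ : min δ 1 ≤ δ := min_le_left _ _
  have hπ3 := Real.pi_gt_three
  obtain ⟨W0, h⟩ := stepQ_small hb1 hδ' hδ1 (by linarith) hB hM4 (fun L₀ Cb cb => hC _ L₀ Cb cb hδ')
  refine ⟨W0, fun W hW => ?_⟩
  obtain ⟨k0, h⟩ := h W hW
  refine ⟨k0, fun k hk => ?_⟩
  obtain ⟨p, C, ys, X, hC0, hys, hX, h⟩ := h k hk
  refine ⟨p, C + 1, min ys 1, X, by linarith, lt_min hys one_pos, ?_⟩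
  rintro b hbb1 hbb2 N xi y a hxi hy hyy ha hN ⟨hne, hH⟩
  have hy1 : y ≤ 1 := hyy.trans (min_le_right _ _)
  have hyys : y ≤ ys := hyy.trans (min_le_left _ _)
  have xone : 1 ≤ xi := hX.trans hxi
  have xone' : (1 : ℝ) ≤ xi := by exact_mod_cast xone
  have hM2 : 2 ≤ Mn p y := two_le_Mn p y
  have hM2r : (2 : ℝ) ≤ (Mn p y : ℝ) := by exact_mod_cast hM2
  have hs0 : 0 ≤ √y := Real.sqrt_nonneg y
  have hys' : y ≤ (Mn p y : ℝ) * √y := by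
    have h1 : y ≤ √y := by
      rw [Real.le_sqrt hy.le hy.le]
      nlinarith
    have h2 : 1 * √y ≤ (Mn p y : ℝ) * √y := mul_le_mul_of_nonneg_right (by linarith) hs0
    linarith
  have hlog : 0 ≤ 1 / Real.log (1 / y) ^ 2 := by positivity
  refine ⟨hne, ?_⟩
  have hcast : ((Mn p y * xi : ℕ) : ℝ) = (Mn p y : ℝ) * xi := by push_cast; ring
  rw [hcast]
  have hMξ : (0 : ℝ) ≤ (Mn p y : ℝ) * xi := by positivity
  rcases le_or_gt 0 a with ha0 | ha0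
  · have h1 := h b hbb1 hbb2 N xi y a hxi hy hyys ha0 (by linarith) hN hH
    refine h1.mono (by norm_num) le_rfl hMξ le_rfl ?_
    nlinarith
  · have hH0 : Hyp 10 W (xi : ℝ) (H41.G b N (xi : ℝ)) y 0 :=
      hH.mono (by norm_num) le_rfl (Nat.cast_nonneg _) le_rfl ha0.le
    have h1 := h b hbb1 hbb2 N xi y 0 hxi hy hyys le_rfl (by linarith) hN hH0
    have hN2 : 2 ≤ N := by
      rw [hN]
      have hK1 : 1 ≤ Kn k y := Frame.one_le_Kn k y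
      calc 2 = 1 * 2 * 1 := rfl
        _ ≤ Kn k y * Mn p y * xi := Nat.mul_le_mul (Nat.mul_le_mul hK1 hM2) xone
    have h2 := slope_neg hN2 (hb1.trans hbb1) xone' hH.qu ha0
    refine h1.mono (by norm_num) le_rfl hMξ le_rfl ?_
    nlinarith

end

end Vale.Agent.P159.TM.H764
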