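import Mathlib

/-!
Elementary lemmas on the torus `Z_N x Z_N` for a reflection and swap symmetric nonnegative
kernel `G` (the covariance of the massive integer heights, centre `0`).  They replace the
concavity (reflection positivity) of the self energy.
-/

namespace Vale.Agent.P159.TM.H764

open Finset

noncomputable section

variable {N : ℕ} [NeZero N]

/-- `∑_x (ψ(x+w) - ψ(x))²`. -/
def Q (ψ : ZMod N × ZMod N → ℝ) (w : ZMod N × ZMod N) : ℝ := ∑ x, (ψ (x + w) - ψ x) ^ 2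

lemma Q_nonneg (ψ : ZMod N × ZMod N → ℝ) (w : ZMod N × ZMod N) : 0 ≤ Q ψ w :=
  Finset.sum_nonneg fun _ _ => sq_nonneg _

lemma Q_neg (ψ : ZMod N × ZMod N → ℝ) (w : ZMod N × ZMod N) : Q ψ (-w) = Q ψ w := by
  unfold Q
  rw [← Equiv.sum_comp (Equiv.addRight w) (fun x => (ψ (x + -w) - ψ x) ^ 2)]
  refine Finset.sum_congr rfl fun x _ => ?_
  simp only [Equiv.coe_addRight]
  rw [add_neg_cancel_right]
  ring

lemma Q_zero (ψ : ZMod N × ZMod N → ℝ) : Q ψ 0 = 0 := by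
  simp [Q]

/-- translated version: `∑_x (ψ(x+c+w) - ψ(x+c))² = Q w`. -/
lemma Q_shift (ψ : ZMod N × ZMod N → ℝ) (c d : ZMod N × ZMod N) :
    ∑ x, (ψ (x + d) - ψ (x + c)) ^ 2 = Q ψ (d - c) := by
  unfold Q
  rw [← Equiv.sum_comp (Equiv.addRight c) (fun x => (ψ (x + (d - c)) - ψ x) ^ 2)]
  refine Finset.sum_congr rfl fun x _ => ?_
  simp only [Equiv.coe_addRight]
  congr 3
  abel

/-- parallelogram inequality. -/
lemma Q_par (ψ : ZMod N × ZMod N → ℝ) (a b : ZMod N × ZMod N) :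
    Q ψ (a + b) + Q ψ (b - a) ≤ 2 * Q ψ a + 2 * Q ψ b := by
  have h1 : ∑ x, (ψ (x + a) - ψ (x + 0)) ^ 2 = Q ψ (a - 0) := Q_shift ψ 0 a
  have h2 : ∑ x, (ψ (x + (a + b)) - ψ (x + b)) ^ 2 = Q ψ (a + b - b) := Q_shift ψ b (a + b)
  have h3 : ∑ x, (ψ (x + b) - ψ (x + 0)) ^ 2 = Q ψ (b - 0) := Q_shift ψ 0 b
  have h4 : ∑ x, (ψ (x + (a + b)) - ψ (x + a)) ^ 2 = Q ψ (a + b - a) := Q_shift ψ a (a + b)
  have h5 : ∑ x, (ψ (x + (a + b)) - ψ (x + 0)) ^ 2 = Q ψ (a + b - 0) := Q_shift ψ 0 (a + b)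
  have h6 : ∑ x, (ψ (x + b) - ψ (x + a)) ^ 2 = Q ψ (b - a) := Q_shift ψ a b
  rw [sub_zero] at h1 h3 h5
  rw [add_sub_cancel_right] at h2
  rw [add_sub_cancel_left] at h4
  have h0 : 0 ≤ ∑ x, (ψ (x + 0) - ψ (x + a) - ψ (x + b) + ψ (x + (a + b))) ^ 2 :=
    Finset.sum_nonneg fun _ _ => sq_nonneg _
  have e : ∑ x, (ψ (x + 0) - ψ (x + a) - ψ (x + b) + ψ (x + (a + b))) ^ 2 =
      ∑ x, (ψ (x + a) - ψ (x + 0)) ^ 2 + ∑ x, (ψ (x + (a + b)) - ψ (x + b)) ^ 2 +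
      ∑ x, (ψ (x + b) - ψ (x + 0)) ^ 2 + ∑ x, (ψ (x + (a + b)) - ψ (x + a)) ^ 2
      - ∑ x, (ψ (x + (a + b)) - ψ (x + 0)) ^ 2 - ∑ x, (ψ (x + b) - ψ (x + a)) ^ 2 := by
    rw [← Finset.sum_add_distrib, ← Finset.sum_add_distrib, ← Finset.sum_add_distrib,
      ← Finset.sum_sub_distrib, ← Finset.sum_sub_distrib]
    refine Finset.sum_congr rfl fun x _ => ?_
    ring
  rw [e, h1, h2, h3, h4, h5, h6] at h0
  linarith

/-- `Q(m e) ≤ m² Q(e)`. -/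
lemma Q_nsmul (ψ : ZMod N × ZMod N → ℝ) (e : ZMod N × ZMod N) (m : ℕ) :
    Q ψ (m • e) ≤ (m : ℝ) ^ 2 * Q ψ e := by
  have key : ∀ x, (ψ (x + m • e) - ψ x) ^ 2 ≤
      (m : ℝ) * ∑ i ∈ range m, (ψ (x + (i + 1) • e) - ψ (x + i • e)) ^ 2 := by
    intro x
    have h1 : ψ (x + m • e) - ψ x = ∑ i ∈ range m, (ψ (x + (i + 1) • e) - ψ (x + i • e)) := by
      rw [Finset.sum_range_sub (fun i => ψ (x + i • e))]
      simp
    rw [h1]
    have := sq_sum_le_card_mul_sum_sq (s := range m)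
      (f := fun i => ψ (x + (i + 1) • e) - ψ (x + i • e))
    simpa using this
  calc Q ψ (m • e) ≤ ∑ x, (m : ℝ) * ∑ i ∈ range m, (ψ (x + (i + 1) • e) - ψ (x + i • e)) ^ 2 :=
        Finset.sum_le_sum fun x _ => key x
    _ = (m : ℝ) * ∑ i ∈ range m, ∑ x, (ψ (x + (i + 1) • e) - ψ (x + i • e)) ^ 2 := by
        rw [← Finset.mul_sum, Finset.sum_comm]
    _ = (m : ℝ) * ∑ i ∈ range m, Q ψ e := by
        congr 1
        refine Finset.sum_congr rfl fun i _ => ?_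
        rw [Q_shift]
        congr 1
        rw [add_smul, one_smul]
        abel
    _ = (m : ℝ) ^ 2 * Q ψ e := by
        simp; ring

lemma Q_zsmul (ψ : ZMod N × ZMod N → ℝ) (e : ZMod N × ZMod N) (m : ℤ) :
    Q ψ (m • e) ≤ (m : ℝ) ^ 2 * Q ψ e := by
  obtain ⟨n, rfl | rfl⟩ := m.eq_nat_or_neg
  · have := Q_nsmul ψ e n
    simpa using this
  · have := Q_nsmul ψ e n
    rw [neg_smul, Q_neg]
    simpa using this

lemma Q_axis1 (ψ : ZMod N × ZMod N → ℝ) (a : ZMod N) :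
    Q ψ (a, 0) ≤ (a.valMinAbs : ℝ) ^ 2 * Q ψ (1, 0) := by
  have := Q_zsmul ψ (1, 0) a.valMinAbs
  have e : a.valMinAbs • ((1 : ZMod N), (0 : ZMod N)) = (a, 0) := by
    ext
    · simp
    · simp
  rwa [e] at this

lemma Q_axis2 (ψ : ZMod N × ZMod N → ℝ) (a : ZMod N) :
    Q ψ (0, a) ≤ (a.valMinAbs : ℝ) ^ 2 * Q ψ (0, 1) := by
  have := Q_zsmul ψ (0, 1) a.valMinAbs
  have e : a.valMinAbs • ((0 : ZMod N), (1 : ZMod N)) = (0, a) := by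
    ext
    · simp
    · simp
  rwa [e] at this

/-- the reflection `w ↦ (-w₁, w₂)`. -/
def refl1 : (ZMod N × ZMod N) ≃ (ZMod N × ZMod N) :=
  Equiv.prodCongr (Equiv.neg _) (Equiv.refl _)

@[simp] lemma refl1_apply (w : ZMod N × ZMod N) : refl1 w = (-w.1, w.2) := rfl

/-- **Sharp upper bound of the neutral quadratic form by the second moment.** -/
theorem dirichlet_le (G : ZMod N × ZMod N → ℝ) (hG : ∀ w, 0 ≤ G w)
    (hr : ∀ w, G (-w.1, w.2) = G w) (hs : ∀ w, G (w.2, w.1) = G w)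
    (ψ : ZMod N × ZMod N → ℝ) :
    ∑ w, G w * Q ψ w ≤ (∑ w, (w.1.valMinAbs : ℝ) ^ 2 * G w) * (Q ψ (1, 0) + Q ψ (0, 1)) := by
  have s1 : ∑ w, G w * Q ψ w = ∑ w, G w * Q ψ (-w.1, w.2) := by
    rw [← Equiv.sum_comp refl1]
    refine Finset.sum_congr rfl fun w _ => ?_
    rw [refl1_apply, hr w]
  have s2 : ∀ w : ZMod N × ZMod N, Q ψ w + Q ψ (-w.1, w.2) ≤
      2 * Q ψ (w.1, 0) + 2 * Q ψ (0, w.2) := by
    intro w
    have := Q_par ψ (w.1, 0) (0, w.2)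
    have e1 : ((w.1, 0) : ZMod N × ZMod N) + (0, w.2) = w := by ext <;> simp
    have e2 : ((0, w.2) : ZMod N × ZMod N) - (w.1, 0) = (-w.1, w.2) := by ext <;> simp
    rwa [e1, e2] at this
  have s3 : 2 * ∑ w, G w * Q ψ w ≤ ∑ w, G w * (2 * Q ψ (w.1, 0) + 2 * Q ψ (0, w.2)) := by
    calc 2 * ∑ w, G w * Q ψ w = ∑ w, G w * Q ψ w + ∑ w, G w * Q ψ (-w.1, w.2) := by
          rw [← s1]; ring
      _ = ∑ w, G w * (Q ψ w + Q ψ (-w.1, w.2)) := by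
          rw [← Finset.sum_add_distrib]
          exact Finset.sum_congr rfl fun w _ => by ring
      _ ≤ _ := Finset.sum_le_sum fun w _ => mul_le_mul_of_nonneg_left (s2 w) (hG w)
  have s4 : ∑ w : ZMod N × ZMod N, G w * (2 * Q ψ (w.1, 0) + 2 * Q ψ (0, w.2)) ≤
      ∑ w : ZMod N × ZMod N, G w * (2 * ((w.1.valMinAbs : ℝ) ^ 2 * Q ψ (1, 0)) +
        2 * ((w.2.valMinAbs : ℝ) ^ 2 * Q ψ (0, 1))) := by
    refine Finset.sum_le_sum fun w _ => mul_le_mul_of_nonneg_left ?_ (hG w)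
    have := Q_axis1 ψ w.1
    have := Q_axis2 ψ w.2
    linarith
  have s5 : ∑ w : ZMod N × ZMod N, (w.2.valMinAbs : ℝ) ^ 2 * G w =
      ∑ w : ZMod N × ZMod N, (w.1.valMinAbs : ℝ) ^ 2 * G w := by
    rw [← Equiv.sum_comp (Equiv.prodComm _ _)]
    refine Finset.sum_congr rfl fun w _ => ?_
    simp only [Equiv.prodComm_apply, Prod.swap, hs w]
  have s6 : ∑ w : ZMod N × ZMod N, G w * (2 * ((w.1.valMinAbs : ℝ) ^ 2 * Q ψ (1, 0)) +
        2 * ((w.2.valMinAbs : ℝ) ^ 2 * Q ψ (0, 1))) =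
      2 * ((∑ w : ZMod N × ZMod N, (w.1.valMinAbs : ℝ) ^ 2 * G w) * Q ψ (1, 0)) +
      2 * ((∑ w : ZMod N × ZMod N, (w.2.valMinAbs : ℝ) ^ 2 * G w) * Q ψ (0, 1)) := by
    rw [Finset.sum_mul, Finset.sum_mul, Finset.mul_sum, Finset.mul_sum,
      ← Finset.sum_add_distrib]
    exact Finset.sum_congr rfl fun w _ => by ring
  rw [s6, s5] at s4
  linarith

end

end Vale.Agent.P159.TM.H764
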